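import Mathlib

-- ▼ part Lib/Ehrhard/Basic
section

set_option autoImplicit false
open MeasureTheory ProbabilityTheory Set Filter Topology
open scoped NNReal ENNReal

namespace Crest.Agent.Lib.Ehrhard

/-- the standard normal law on `ℝ` -/
noncomputable abbrev γ : Measure ℝ := gaussianReal 0 1

/-- standard normal density -/
noncomputable def phi (x : ℝ) : ℝ := (Real.sqrt (2 * Real.pi))⁻¹ * Real.exp (-x ^ 2 / 2)

lemma phi_eq : phi = gaussianPDFReal 0 1 := by
  ext x; simp [phi, gaussianPDFReal]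

lemma c_pos : 0 < (Real.sqrt (2 * Real.pi))⁻¹ := by positivity

lemma phi_pos (x : ℝ) : 0 < phi x := by unfold phi; positivity

lemma phi_nonneg (x : ℝ) : 0 ≤ phi x := (phi_pos x).le

lemma continuous_phi : Continuous phi := by unfold phi; fun_prop

lemma sqrt_two_pi_ge : (1:ℝ) ≤ Real.sqrt (2 * Real.pi) := by
  rw [Real.one_le_sqrt]; linarith [Real.pi_gt_three]

lemma c_le_one : (Real.sqrt (2 * Real.pi))⁻¹ ≤ 1 := inv_le_one_of_one_le₀ sqrt_two_pi_ge

lemma phi_le_one (x : ℝ) : phi x ≤ 1 := by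
  unfold phi
  have h1 : Real.exp (-x ^ 2 / 2) ≤ 1 := Real.exp_le_one_iff.2 (by nlinarith [sq_nonneg x])
  calc _ ≤ 1 * 1 := mul_le_mul c_le_one h1 (Real.exp_pos _).le zero_le_one
    _ = 1 := one_mul 1

lemma abs_mul_phi_le (x : ℝ) : |x| * phi x ≤ 1 := by
  unfold phi
  have h1 : |x| * Real.exp (-x ^ 2 / 2) ≤ 1 := by
    have h2 : |x| ≤ Real.exp (x ^ 2 / 2) := by
      have := Real.add_one_le_exp (x ^ 2 / 2)
      have h3 : x ^ 2 = |x| ^ 2 := (sq_abs x).symm
      nlinarith [sq_nonneg (|x| - 1)]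
    have h4 : Real.exp (-x ^ 2 / 2) = (Real.exp (x ^ 2 / 2))⁻¹ := by
      rw [← Real.exp_neg]; ring_nf
    rw [h4]
    exact mul_inv_le_one_of_le₀ h2 (Real.exp_pos _).le
  calc |x| * ((Real.sqrt (2 * Real.pi))⁻¹ * Real.exp (-x ^ 2 / 2))
      = (Real.sqrt (2 * Real.pi))⁻¹ * (|x| * Real.exp (-x ^ 2 / 2)) := by ring
    _ ≤ 1 * 1 := mul_le_mul c_le_one h1 (by positivity) zero_le_one
    _ = 1 := one_mul 1

lemma hasDerivAt_phi (x : ℝ) : HasDerivAt phi (-x * phi x) x := by
  unfold phi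
  have h : HasDerivAt (fun x : ℝ => -x ^ 2 / 2) (-x) x :=
    (((hasDerivAt_pow 2 x).fun_neg).div_const 2).congr_deriv (by simp; ring)
  exact ((h.exp).const_mul ((Real.sqrt (2 * Real.pi))⁻¹)).congr_deriv (by ring)

lemma integrable_phi : Integrable phi := by rw [phi_eq]; exact integrable_gaussianPDFReal 0 1

lemma integral_phi : ∫ x, phi x = 1 := by
  rw [phi_eq]; exact integral_gaussianPDFReal_eq_one 0 one_ne_zero

lemma phi_neg (x : ℝ) : phi (-x) = phi x := by unfold phi; simp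

lemma phi_add (b a : ℝ) : phi (b + a) = phi b * Real.exp (-(a * b) - a ^ 2 / 2) := by
  unfold phi
  rw [mul_assoc, ← Real.exp_add]
  congr 2
  ring

/-- standard normal distribution function -/
noncomputable def Phi (x : ℝ) : ℝ := ∫ t in Iic x, phi t

lemma Phi_eq_add (x : ℝ) : Phi x = Phi 0 + ∫ t in (0:ℝ)..x, phi t := by
  unfold Phi
  rw [← intervalIntegral.integral_Iic_sub_Iic integrable_phi.integrableOn integrable_phi.integrableOn]
  ring

lemma hasDerivAt_Phi (x : ℝ) : HasDerivAt Phi (phi x) x := by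
  have h1 : Phi = fun x => Phi 0 + ∫ t in (0:ℝ)..x, phi t := by ext x; exact Phi_eq_add x
  rw [h1]
  exact (intervalIntegral.integral_hasDerivAt_right (continuous_phi.intervalIntegrable _ _)
    (continuous_phi.stronglyMeasurableAtFilter _ _) continuous_phi.continuousAt).const_add _

lemma hasStrictDerivAt_Phi (x : ℝ) : HasStrictDerivAt Phi (phi x) x :=
  hasStrictDerivAt_of_hasDerivAt_of_continuousAt
    (Eventually.of_forall fun y => hasDerivAt_Phi y) continuous_phi.continuousAt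

lemma continuous_Phi : Continuous Phi :=
  continuous_iff_continuousAt.2 fun x => (hasDerivAt_Phi x).continuousAt

lemma strictMono_Phi : StrictMono Phi :=
  strictMono_of_hasDerivAt_pos (fun x => hasDerivAt_Phi x) phi_pos

lemma Phi_add_compl (x : ℝ) : Phi x + ∫ t in Ioi x, phi t = 1 := by
  unfold Phi
  rw [← integral_phi, ← compl_Iic]
  exact integral_add_compl measurableSet_Iic integrable_phi

lemma Phi_neg (x : ℝ) : Phi (-x) = 1 - Phi x := by
  have h : ∫ t in Ioi x, phi t = Phi (-x) := by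
    unfold Phi
    rw [← integral_comp_neg_Ioi x phi]
    simp only [phi_neg]
  linarith [Phi_add_compl x]

lemma Phi_nonneg (x : ℝ) : 0 ≤ Phi x := integral_nonneg fun t => phi_nonneg t

lemma Phi_pos (x : ℝ) : 0 < Phi x := lt_of_le_of_lt (Phi_nonneg (x - 1)) (strictMono_Phi (by linarith))

lemma Phi_lt_one (x : ℝ) : Phi x < 1 := by
  have := Phi_pos (-x); rw [Phi_neg] at this; linarith

lemma tendsto_Phi_atTop : Tendsto Phi atTop (𝓝 1) := by
  have h := (aecover_Iic (μ := (volume : Measure ℝ)) tendsto_id).integral_tendsto_of_countably_generated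
    integrable_phi
  rw [integral_phi] at h
  exact h

lemma tendsto_Phi_atBot : Tendsto Phi atBot (𝓝 0) := by
  have h := tendsto_Phi_atTop.comp tendsto_neg_atBot_atTop
  have h2 : Phi = fun x => 1 - (Phi ∘ Neg.neg) x := by
    ext x; simp [Phi_neg]
  rw [h2]
  have := h.const_sub 1
  simpa using this

lemma Phi_surj {p : ℝ} (h0 : 0 < p) (h1 : p < 1) : ∃ x, Phi x = p := by
  have := mem_range_of_exists_le_of_exists_ge continuous_Phi (c := p)
    ((tendsto_Phi_atBot.eventually (gt_mem_nhds h0)).exists.imp fun x hx => hx.le)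
    ((tendsto_Phi_atTop.eventually (lt_mem_nhds h1)).exists.imp fun x hx => hx.le)
  exact this

/-- inverse of `Phi` -/
noncomputable def Psi (p : ℝ) : ℝ := Function.invFun Phi p

@[simp] lemma Psi_Phi (x : ℝ) : Psi (Phi x) = x :=
  Function.leftInverse_invFun strictMono_Phi.injective x

lemma Phi_Psi {p : ℝ} (h0 : 0 < p) (h1 : p < 1) : Phi (Psi p) = p :=
  Function.invFun_eq (Phi_surj h0 h1)

lemma Psi_le_iff {p x : ℝ} (h0 : 0 < p) (h1 : p < 1) : Psi p ≤ x ↔ p ≤ Phi x := by
  conv_rhs => rw [← Phi_Psi h0 h1]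
  exact strictMono_Phi.le_iff_le.symm

lemma le_Psi_iff {p x : ℝ} (h0 : 0 < p) (h1 : p < 1) : x ≤ Psi p ↔ Phi x ≤ p := by
  conv_rhs => rw [← Phi_Psi h0 h1]
  exact strictMono_Phi.le_iff_le.symm

lemma hasStrictDerivAt_Psi (a : ℝ) : HasStrictDerivAt Psi (phi a)⁻¹ (Phi a) :=
  (hasStrictDerivAt_Phi a).to_local_left_inverse (phi_pos a).ne' (Eventually.of_forall Psi_Phi)

lemma hasDerivAt_Psi {p : ℝ} (h0 : 0 < p) (h1 : p < 1) : HasDerivAt Psi (phi (Psi p))⁻¹ p := by
  have := (hasStrictDerivAt_Psi (Psi p)).hasDerivAt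
  rwa [Phi_Psi h0 h1] at this

lemma continuousAt_Psi {p : ℝ} (h0 : 0 < p) (h1 : p < 1) : ContinuousAt Psi p :=
  (hasDerivAt_Psi h0 h1).continuousAt

/-- tangent line inequality for the concave function `p ↦ Phi (Psi p + a)`, `a ≥ 0` -/
lemma Phi_add_le (a b b0 : ℝ) (ha : 0 ≤ a) :
    Phi (b + a) ≤ Phi (b0 + a) + Real.exp (-(a * b0) - a ^ 2 / 2) * (Phi b - Phi b0) := by
  set r := Real.exp (-(a * b0) - a ^ 2 / 2) with hr
  set K : ℝ → ℝ := fun b => Phi (b + a) - r * Phi b with hK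
  have hd : ∀ x, HasDerivAt K (phi x * (Real.exp (-(a * x) - a ^ 2 / 2) - r)) x := by
    intro x
    have h1 : HasDerivAt (fun x => Phi (x + a)) (phi (x + a)) x := by
      simpa using (hasDerivAt_Phi (x + a)).comp_add_const x a
    have h2 := (hasDerivAt_Phi x).const_mul r
    exact (h1.fun_sub h2).congr_deriv (by rw [phi_add]; ring)
  have hc : Continuous K := continuous_iff_continuousAt.2 fun x => (hd x).continuousAt
  have key : K b ≤ K b0 := by
    rcases le_total b b0 with h | h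
    · have : MonotoneOn K (Iic b0) := by
        refine monotoneOn_of_deriv_nonneg (convex_Iic b0) hc.continuousOn
          (fun x _ => (hd x).differentiableAt.differentiableWithinAt) ?_
        intro x hx
        rw [interior_Iic] at hx
        rw [(hd x).deriv]
        refine mul_nonneg (phi_nonneg x) (sub_nonneg.2 ?_)
        rw [hr]
        apply Real.exp_le_exp.2
        have := mul_le_mul_of_nonneg_left (le_of_lt hx) ha
        simp only [mem_Iio] at hx
        nlinarith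
      exact this h (le_refl b0) h
    · have : AntitoneOn K (Ici b0) := by
        refine antitoneOn_of_deriv_nonpos (convex_Ici b0) hc.continuousOn
          (fun x _ => (hd x).differentiableAt.differentiableWithinAt) ?_
        intro x hx
        rw [interior_Ici] at hx
        rw [(hd x).deriv]
        refine mul_nonpos_of_nonneg_of_nonpos (phi_nonneg x) (sub_nonpos.2 ?_)
        rw [hr]
        apply Real.exp_le_exp.2
        simp only [mem_Ioi] at hx
        nlinarith
      exact this (le_refl b0) h h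
  simp only [hK] at key
  linarith

/-! ### Gaussian mean `Psi (E Phi X)` -/

variable {Ω : Type*} [MeasurableSpace Ω]

lemma integrable_Phi_comp (μ : Measure Ω) [IsFiniteMeasure μ] {X : Ω → ℝ} (hX : AEMeasurable X μ) :
    Integrable (fun ω => Phi (X ω)) μ := by
  refine Integrable.mono' (integrable_const (1:ℝ))
    (continuous_Phi.measurable.comp_aemeasurable hX).aestronglyMeasurable ?_
  refine Eventually.of_forall fun ω => ?_
  rw [Real.norm_of_nonneg (Phi_nonneg _)]
  exact (Phi_lt_one _).le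

lemma integral_Phi_pos (μ : Measure Ω) [IsProbabilityMeasure μ] {X : Ω → ℝ} (hX : AEMeasurable X μ) :
    0 < ∫ ω, Phi (X ω) ∂μ := by
  refine (integral_pos_iff_support_of_nonneg (fun ω => Phi_nonneg _) (integrable_Phi_comp μ hX)).2 ?_
  have : Function.support (fun ω => Phi (X ω)) = univ := by
    ext ω; simp [(Phi_pos (X ω)).ne']
  rw [this]; simp

lemma integral_Phi_lt_one (μ : Measure Ω) [IsProbabilityMeasure μ] {X : Ω → ℝ} (hX : AEMeasurable X μ) :
    ∫ ω, Phi (X ω) ∂μ < 1 := by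
  have h := integral_Phi_pos μ hX.neg
  simp only [Pi.neg_apply, Phi_neg] at h
  rw [integral_sub (integrable_const _) (integrable_Phi_comp μ hX)] at h
  simp at h
  linarith

/-- `Psi (E Phi X)` -/
noncomputable def gm (μ : Measure Ω) (X : Ω → ℝ) : ℝ := Psi (∫ ω, Phi (X ω) ∂μ)

lemma Phi_gm (μ : Measure Ω) [IsProbabilityMeasure μ] {X : Ω → ℝ} (hX : AEMeasurable X μ) :
    Phi (gm μ X) = ∫ ω, Phi (X ω) ∂μ :=
  Phi_Psi (integral_Phi_pos μ hX) (integral_Phi_lt_one μ hX)

lemma gm_le_add (μ : Measure Ω) [IsProbabilityMeasure μ] {X Y : Ω → ℝ} (hX : AEMeasurable X μ)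
    (hY : AEMeasurable Y μ) {a : ℝ} (ha : 0 ≤ a) (h : ∀ ω, X ω ≤ Y ω + a) :
    gm μ X ≤ gm μ Y + a := by
  rw [← strictMono_Phi.le_iff_le, Phi_gm μ hX]
  set b0 := gm μ Y with hb0
  have hPb0 : Phi b0 = ∫ ω, Phi (Y ω) ∂μ := Phi_gm μ hY
  calc ∫ ω, Phi (X ω) ∂μ
      ≤ ∫ ω, (Phi (b0 + a) + Real.exp (-(a * b0) - a ^ 2 / 2) * (Phi (Y ω) - Phi b0)) ∂μ := by
        refine integral_mono (integrable_Phi_comp μ hX) ?_ ?_
        · exact (integrable_const _).add (((integrable_Phi_comp μ hY).sub (integrable_const _)).const_mul _)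
        · intro ω
          exact (strictMono_Phi.monotone (h ω)).trans (Phi_add_le a (Y ω) b0 ha)
    _ = Phi (b0 + a) := by
        have i1 : Integrable (fun ω => Phi (Y ω)) μ := integrable_Phi_comp μ hY
        have i2 : Integrable (fun ω => Phi (Y ω) - Phi b0) μ := i1.sub (integrable_const _)
        have i3 : Integrable (fun ω => Real.exp (-(a * b0) - a ^ 2 / 2) * (Phi (Y ω) - Phi b0)) μ :=
          i2.const_mul _
        rw [integral_add (integrable_const _) i3, integral_const_mul,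
          integral_sub i1 (integrable_const _)]
        simp [hPb0]


lemma abs_gm_sub_le (μ : Measure Ω) [IsProbabilityMeasure μ] {X Y : Ω → ℝ} (hX : AEMeasurable X μ)
    (hY : AEMeasurable Y μ) {a : ℝ} (h : ∀ ω, |X ω - Y ω| ≤ a) :
    |gm μ X - gm μ Y| ≤ a := by
  obtain ⟨ω0⟩ : Nonempty Ω := nonempty_of_isProbabilityMeasure μ
  have ha : 0 ≤ a := (abs_nonneg _).trans (h ω0)
  rw [abs_le]
  constructor
  · have := gm_le_add μ hY hX ha (fun ω => by have := (abs_le.1 (h ω)).1; linarith)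
    linarith
  · have := gm_le_add μ hX hY ha (fun ω => by have := (abs_le.1 (h ω)).2; linarith)
    linarith

end Crest.Agent.Lib.Ehrhard
end

-- ▼ part Lib/Ehrhard/Heat
section

set_option autoImplicit false
open MeasureTheory ProbabilityTheory Set Filter Topology
open scoped NNReal ENNReal

namespace Crest.Agent.Lib.Ehrhard

/-- Gaussian average `E u (y + s G)` -/
noncomputable def hs (u : ℝ → ℝ) (s y : ℝ) : ℝ := ∫ x, u (y + s * x) ∂γ

lemma integrable_abs_id : Integrable (fun x : ℝ => |x|) γ := by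
  have := (memLp_id_gaussianReal (μ := 0) (v := 1) 1).integrable (by norm_num)
  exact this.abs

lemma integrable_of_bdd {α : Type*} [MeasurableSpace α] (μ : Measure α) [IsFiniteMeasure μ]
    {u : α → ℝ} (hu : AEStronglyMeasurable u μ) {C : ℝ} (hb : ∀ x, |u x| ≤ C) : Integrable u μ :=
  Integrable.mono' (integrable_const C) hu (Eventually.of_forall fun x => by simpa using hb x)

lemma hs_hasDerivAt_y {u u' : ℝ → ℝ} {C C' : ℝ} (hu : ∀ x, HasDerivAt u (u' x) x)
    (hc : Continuous u') (hb : ∀ x, |u x| ≤ C) (hb' : ∀ x, |u' x| ≤ C') (s y : ℝ) :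
    HasDerivAt (fun y => hs u s y) (hs u' s y) y := by
  have hcu : Continuous u := continuous_iff_continuousAt.2 fun x => (hu x).continuousAt
  refine (hasDerivAt_integral_of_dominated_loc_of_deriv_le (s := univ)
    (F := fun y x => u (y + s * x)) (F' := fun y x => u' (y + s * x)) (bound := fun _ => C')
    univ_mem ?_ ?_ ?_ ?_ ?_ ?_).2
  · exact Eventually.of_forall fun y => (by fun_prop : Continuous fun x => u (y + s * x)).aestronglyMeasurable
  · exact integrable_of_bdd _ (by fun_prop : Continuous fun x => u (y + s * x)).aestronglyMeasurable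
      (fun x => hb _)
  · exact (by fun_prop : Continuous fun x => u' (y + s * x)).aestronglyMeasurable
  · exact Eventually.of_forall fun x y _ => by simpa using hb' _
  · exact integrable_const _
  · refine Eventually.of_forall fun x y _ => ?_
    simpa using (hu (y + s * x)).comp_add_const y (s * x)

lemma hs_hasDerivAt_s {u u' : ℝ → ℝ} {C C' : ℝ} (hu : ∀ x, HasDerivAt u (u' x) x)
    (hc : Continuous u') (hb : ∀ x, |u x| ≤ C) (hb' : ∀ x, |u' x| ≤ C') (s y : ℝ) :
    HasDerivAt (fun s => hs u s y) (∫ x, x * u' (y + s * x) ∂γ) s := by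
  have hcu : Continuous u := continuous_iff_continuousAt.2 fun x => (hu x).continuousAt
  refine (hasDerivAt_integral_of_dominated_loc_of_deriv_le (s := univ)
    (F := fun s x => u (y + s * x)) (F' := fun s x => x * u' (y + s * x)) (bound := fun x => |x| * C')
    univ_mem ?_ ?_ ?_ ?_ ?_ ?_).2
  · exact Eventually.of_forall fun s => (by fun_prop : Continuous fun x => u (y + s * x)).aestronglyMeasurable
  · exact integrable_of_bdd _ (by fun_prop : Continuous fun x => u (y + s * x)).aestronglyMeasurable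
      (fun x => hb _)
  · exact (by fun_prop : Continuous fun x => x * u' (y + s * x)).aestronglyMeasurable
  · refine Eventually.of_forall fun x s _ => ?_
    rw [norm_mul, Real.norm_eq_abs, Real.norm_eq_abs]
    exact mul_le_mul_of_nonneg_left (hb' _) (abs_nonneg x)
  · exact integrable_abs_id.mul_const _
  · refine Eventually.of_forall fun x s _ => ?_
    have h1 : HasDerivAt (fun s : ℝ => y + s * x) x s := by
      simpa using ((hasDerivAt_id s).mul_const x).const_add y
    exact ((hu (y + s * x)).comp s h1).congr_deriv (by ring)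

/-- Stein's lemma -/
lemma stein {v v' : ℝ → ℝ} {C C' : ℝ} (hv : ∀ x, HasDerivAt v (v' x) x)
    (hc : Continuous v') (hb : ∀ x, |v x| ≤ C) (hb' : ∀ x, |v' x| ≤ C') (s y : ℝ) :
    ∫ x, x * v (y + s * x) ∂γ = s * hs v' s y := by
  have hcv : Continuous v := continuous_iff_continuousAt.2 fun x => (hv x).continuousAt
  have e : ∀ F : ℝ → ℝ, ∫ x, F x ∂γ = ∫ x, phi x * F x := by
    intro F
    rw [integral_gaussianReal_eq_integral_smul (by norm_num : (1:ℝ≥0) ≠ 0), ← phi_eq]
    rfl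
  have hw : ∀ x : ℝ, HasDerivAt (fun x => v (y + s * x)) (s * v' (y + s * x)) x := by
    intro x
    have h1 : HasDerivAt (fun x : ℝ => y + s * x) s x := by
      simpa using ((hasDerivAt_id x).const_mul s).const_add y
    exact ((hv (y + s * x)).comp x h1).congr_deriv (by ring)
  have hphi : ∀ x : ℝ, HasDerivAt (fun x => - phi x) (x * phi x) x := by
    intro x; exact (hasDerivAt_phi x).fun_neg.congr_deriv (by ring)
  have ixp : Integrable (fun x : ℝ => x * phi x) := by
    have h := (memLp_id_gaussianReal (μ := 0) (v := 1) 1).integrable (by norm_num)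
    have h2 := h
    rw [gaussianReal_of_var_ne_zero 0 (by norm_num : (1:ℝ≥0) ≠ 0)] at h2
    rw [integrable_withDensity_iff_integrable_smul' (measurable_gaussianPDF 0 1)
      (Eventually.of_forall fun x => gaussianPDF_lt_top)] at h2
    refine h2.congr (Eventually.of_forall fun x => ?_)
    simp only [toReal_gaussianPDF, ← phi_eq, smul_eq_mul, id]
    ring
  have i1 : Integrable ((fun x => v (y + s * x)) * (fun x => x * phi x)) := by
    refine (ixp.bdd_mul (c := C) (by fun_prop : Continuous fun x => v (y + s * x)).aestronglyMeasurable ?_)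
    exact Eventually.of_forall fun x => by simpa using hb _
  have i2 : Integrable ((fun x => s * v' (y + s * x)) * (fun x => - phi x)) := by
    refine (integrable_phi.neg.bdd_mul (c := |s| * C')
      (by fun_prop : Continuous fun x => s * v' (y + s * x)).aestronglyMeasurable ?_)
    refine Eventually.of_forall fun x => ?_
    rw [norm_mul, Real.norm_eq_abs, Real.norm_eq_abs]
    exact mul_le_mul_of_nonneg_left (hb' _) (abs_nonneg s)
  have i3 : Integrable ((fun x => v (y + s * x)) * (fun x => - phi x)) := by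
    refine (integrable_phi.neg.bdd_mul (c := C)
      (by fun_prop : Continuous fun x => v (y + s * x)).aestronglyMeasurable ?_)
    exact Eventually.of_forall fun x => by simpa using hb _
  have key := integral_mul_deriv_eq_deriv_mul_of_integrable (u := fun x => v (y + s * x))
    (v := fun x => - phi x) (u' := fun x => s * v' (y + s * x)) (v' := fun x => x * phi x)
    (fun x _ => hw x) (fun x _ => hphi x) i1 i2 i3
  rw [e]
  unfold hs
  rw [e, ← integral_const_mul]
  calc ∫ x, phi x * (x * v (y + s * x)) = ∫ x, v (y + s * x) * (x * phi x) := by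
        congr 1; ext x; ring
    _ = - ∫ x, s * v' (y + s * x) * (- phi x) := key
    _ = ∫ x, s * (phi x * v' (y + s * x)) := by
        rw [← integral_neg]; congr 1; ext x; ring

/-- `f` is `C²` with bounded derivatives -/
structure Nice (L M : ℝ) (f f' f'' : ℝ → ℝ) : Prop where
  d1 : ∀ x, HasDerivAt f (f' x) x
  d2 : ∀ x, HasDerivAt f' (f'' x) x
  c2 : Continuous f''
  b1 : ∀ x, |f' x| ≤ L
  b2 : ∀ x, |f'' x| ≤ M

/-- the flow `Psi (E Phi (f (y + s G)))` -/
noncomputable def fl (f : ℝ → ℝ) (s y : ℝ) : ℝ := Psi (hs (fun x => Phi (f x)) s y)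

lemma fl_eq_gm (f : ℝ → ℝ) (s y : ℝ) : fl f s y = gm γ (fun x => f (y + s * x)) := rfl

lemma fl_zero (f : ℝ → ℝ) (y : ℝ) : fl f 0 y = f y := by
  simp [fl, hs]

lemma fl_one_zero (f : ℝ → ℝ) : fl f 1 0 = gm γ f := by
  simp [fl_eq_gm]

lemma hs_Phi_pos {f : ℝ → ℝ} (hf : Continuous f) (s y : ℝ) : 0 < hs (fun x => Phi (f x)) s y :=
  integral_Phi_pos γ (X := fun x => f (y + s * x)) (by fun_prop : Continuous fun x => f (y + s * x)).aemeasurable

lemma hs_Phi_lt_one {f : ℝ → ℝ} (hf : Continuous f) (s y : ℝ) : hs (fun x => Phi (f x)) s y < 1 :=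
  integral_Phi_lt_one γ (X := fun x => f (y + s * x)) (by fun_prop : Continuous fun x => f (y + s * x)).aemeasurable

lemma continuous_fl {f : ℝ → ℝ} (hf : Continuous f) : Continuous (fun p : ℝ × ℝ => fl f p.1 p.2) := by
  have h1 : Continuous (fun p : ℝ × ℝ => hs (fun x => Phi (f x)) p.1 p.2) := by
    have hP := continuous_Phi
    refine continuous_of_dominated (bound := fun _ => 1) ?_ ?_ (integrable_const _) ?_
    · intro p
      exact (by fun_prop : Continuous fun x => Phi (f (p.2 + p.1 * x))).aestronglyMeasurable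
    · intro p
      refine Eventually.of_forall fun x => ?_
      rw [Real.norm_of_nonneg (Phi_nonneg _)]
      exact (Phi_lt_one _).le
    · refine Eventually.of_forall fun x => ?_
      fun_prop
  rw [continuous_iff_continuousAt]
  intro p
  exact ContinuousAt.comp (f := fun p : ℝ × ℝ => hs (fun x => Phi (f x)) p.1 p.2) (g := Psi)
    (continuousAt_Psi (hs_Phi_pos hf _ _) (hs_Phi_lt_one hf _ _)) h1.continuousAt

lemma fl_lip {f : ℝ → ℝ} (hf : Continuous f) {L : ℝ} (hL : ∀ x y, |f x - f y| ≤ L * |x - y|) (s y z : ℝ) :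
    |fl f s y - fl f s z| ≤ L * |y - z| := by
  rw [fl_eq_gm, fl_eq_gm]
  refine abs_gm_sub_le γ (by fun_prop : Continuous fun x => f (y + s * x)).aemeasurable
    (by fun_prop : Continuous fun x => f (z + s * x)).aemeasurable ?_
  intro x
  have := hL (y + s * x) (z + s * x)
  simpa using this

namespace Nice

variable {L M : ℝ} {f f' f'' : ℝ → ℝ}

lemma cont (h : Nice L M f f' f'') : Continuous f :=
  continuous_iff_continuousAt.2 fun x => (h.d1 x).continuousAt

lemma cont' (h : Nice L M f f' f'') : Continuous f' :=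
  continuous_iff_continuousAt.2 fun x => (h.d2 x).continuousAt

lemma L_nonneg (h : Nice L M f f' f'') : 0 ≤ L := (abs_nonneg _).trans (h.b1 0)

lemma lip (h : Nice L M f f' f'') (x y : ℝ) : |f x - f y| ≤ L * |x - y| := by
  have := (convex_univ (𝕜 := ℝ) (E := ℝ)).norm_image_sub_le_of_norm_hasDerivWithin_le (f := f) (f' := f')
    (fun x _ => (h.d1 x).hasDerivWithinAt) (C := L) (fun x _ => by simpa using h.b1 x)
    (mem_univ y) (mem_univ x)
  simpa using this

/-- first derivative of `Phi ∘ f` -/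
noncomputable def u1 (f f' : ℝ → ℝ) (x : ℝ) : ℝ := phi (f x) * f' x
/-- second derivative of `Phi ∘ f` -/
noncomputable def u2 (f f' f'' : ℝ → ℝ) (x : ℝ) : ℝ := phi (f x) * (f'' x - f x * f' x ^ 2)

lemma hu1 (h : Nice L M f f' f'') (x : ℝ) : HasDerivAt (fun x => Phi (f x)) (u1 f f' x) x :=
  (hasDerivAt_Phi (f x)).comp x (h.d1 x)

lemma hu2 (h : Nice L M f f' f'') (x : ℝ) : HasDerivAt (u1 f f') (u2 f f' f'' x) x := by
  have h1 : HasDerivAt (fun x => phi (f x)) (-f x * phi (f x) * f' x) x :=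
    (hasDerivAt_phi (f x)).comp x (h.d1 x)
  exact (h1.fun_mul (h.d2 x)).congr_deriv (by unfold u2; ring)

lemma cu1 (h : Nice L M f f' f'') : Continuous (u1 f f') := by
  have := h.cont; have := h.cont'; have := continuous_phi
  unfold u1; fun_prop

lemma cu2 (h : Nice L M f f' f'') : Continuous (u2 f f' f'') := by
  have := h.cont; have := h.cont'; have := continuous_phi; have := h.c2
  unfold u2; fun_prop

lemma bu0 (x : ℝ) : |Phi (f x)| ≤ 1 := by
  rw [abs_of_nonneg (Phi_nonneg _)]; exact (Phi_lt_one _).le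

lemma bu1 (h : Nice L M f f' f'') (x : ℝ) : |u1 f f' x| ≤ L := by
  unfold u1
  rw [abs_mul, abs_of_nonneg (phi_nonneg _)]
  calc _ ≤ 1 * L := mul_le_mul (phi_le_one _) (h.b1 x) (abs_nonneg _) zero_le_one
    _ = L := one_mul L

lemma bu2 (h : Nice L M f f' f'') (x : ℝ) : |u2 f f' f'' x| ≤ M + L ^ 2 := by
  unfold u2
  have e : phi (f x) * (f'' x - f x * f' x ^ 2) = phi (f x) * f'' x - (f x * phi (f x)) * f' x ^ 2 := by ring
  rw [e]
  have h1 : |phi (f x) * f'' x| ≤ M := by
    rw [abs_mul, abs_of_nonneg (phi_nonneg _)]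
    calc _ ≤ 1 * M := mul_le_mul (phi_le_one _) (h.b2 x) (abs_nonneg _) zero_le_one
      _ = M := one_mul M
  have h2 : |f x * phi (f x) * f' x ^ 2| ≤ L ^ 2 := by
    rw [abs_mul, abs_mul, abs_of_nonneg (phi_nonneg _), abs_of_nonneg (sq_nonneg (f' x))]
    calc |f x| * phi (f x) * f' x ^ 2 ≤ 1 * L ^ 2 :=
          mul_le_mul (abs_mul_phi_le _) (sq_le_sq' (by linarith [abs_le.1 (h.b1 x)]) (abs_le.1 (h.b1 x)).2)
            (sq_nonneg _) zero_le_one
      _ = L ^ 2 := one_mul _
  calc _ ≤ |phi (f x) * f'' x| + |f x * phi (f x) * f' x ^ 2| := abs_sub _ _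
    _ ≤ M + L ^ 2 := add_le_add h1 h2

/-- space derivative of the flow -/
noncomputable def fy (f f' : ℝ → ℝ) (s y : ℝ) : ℝ := hs (u1 f f') s y * (phi (fl f s y))⁻¹

/-- second space derivative of the flow -/
noncomputable def fyy (f f' f'' : ℝ → ℝ) (s y : ℝ) : ℝ :=
  hs (u2 f f' f'') s y * (phi (fl f s y))⁻¹ + fl f s y * fy f f' s y ^ 2

lemma hfy (h : Nice L M f f' f'') (s y : ℝ) : HasDerivAt (fun y => fl f s y) (fy f f' s y) y := by
  have h1 := hs_hasDerivAt_y (fun x => h.hu1 x) h.cu1 (fun x => bu0 (f := f) x) (fun x => h.bu1 x) s y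
  have h2 := hasDerivAt_Psi (hs_Phi_pos h.cont s y) (hs_Phi_lt_one h.cont s y)
  exact (h2.comp y h1).congr_deriv (by unfold fy fl; ring)

lemma hfyy (h : Nice L M f f' f'') (s y : ℝ) :
    HasDerivAt (fun y => fy f f' s y) (fyy f f' f'' s y) y := by
  have h1 := hs_hasDerivAt_y (fun x => h.hu2 x) h.cu2 (fun x => h.bu1 x) (fun x => h.bu2 x) s y
  have h2 : HasDerivAt (fun y => phi (fl f s y)) (-fl f s y * phi (fl f s y) * fy f f' s y) y :=
    (hasDerivAt_phi _).comp y (h.hfy s y)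
  have h3 := h2.fun_inv (phi_pos _).ne'
  refine (h1.fun_mul h3).congr_deriv ?_
  have hp : phi (fl f s y) ≠ 0 := (phi_pos _).ne'
  unfold fyy
  have e : fy f f' s y = hs (u1 f f') s y * (phi (fl f s y))⁻¹ := rfl
  rw [e]
  field_simp

lemma hfs (h : Nice L M f f' f'') (s y : ℝ) : HasDerivAt (fun s => fl f s y)
    (s * (fyy f f' f'' s y - fl f s y * fy f f' s y ^ 2)) s := by
  have h1 := hs_hasDerivAt_s (fun x => h.hu1 x) h.cu1 (fun x => bu0 (f := f) x) (fun x => h.bu1 x) s y
  rw [stein (fun x => h.hu2 x) h.cu2 (fun x => h.bu1 x) (fun x => h.bu2 x) s y] at h1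
  have h2 := hasDerivAt_Psi (hs_Phi_pos h.cont s y) (hs_Phi_lt_one h.cont s y)
  exact (h2.comp s h1).congr_deriv (by unfold fyy fl; ring)

lemma bfy (h : Nice L M f f' f'') (s y : ℝ) : |fy f f' s y| ≤ L := by
  have h1 : LipschitzWith (Real.toNNReal L) (fun y => fl f s y) := by
    refine LipschitzWith.of_dist_le_mul fun x y => ?_
    rw [Real.dist_eq, Real.dist_eq, Real.coe_toNNReal _ h.L_nonneg]
    exact fl_lip h.cont h.lip s x y
  have h2 := norm_deriv_le_of_lipschitz h1 (x₀ := y)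
  rw [(h.hfy s y).deriv, Real.coe_toNNReal _ h.L_nonneg] at h2
  simpa using h2

end Nice

end Crest.Agent.Lib.Ehrhard
end

-- ▼ part Lib/Ehrhard/MaxPrin
section

set_option autoImplicit false
open MeasureTheory ProbabilityTheory Set Filter Topology
open scoped NNReal ENNReal

namespace Crest.Agent.Lib.Ehrhard

/-- necessary second order condition at a local minimum -/
lemma second_deriv_nonneg {c c' : ℝ → ℝ} {c'' t0 : ℝ} (h1 : ∀ t, HasDerivAt c (c' t) t)
    (h2 : HasDerivAt c' c'' t0) (hmin : IsLocalMin c t0) : 0 ≤ c'' := by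
  by_contra hneg
  push Not at hneg
  have h0 : c' t0 = 0 := hmin.hasDerivAt_eq_zero (h1 t0)
  have hs := hasDerivAt_iff_tendsto_slope.1 h2
  have ev : ∀ᶠ t in 𝓝[≠] t0, slope c' t0 t < 0 := hs.eventually (gt_mem_nhds hneg)
  have ev2 : ∀ᶠ t in 𝓝[>] t0, slope c' t0 t < 0 :=
    ev.filter_mono (nhdsWithin_mono _ (fun x hx => ne_of_gt hx))
  have ev3 : ∀ᶠ t in 𝓝[>] t0, c t0 ≤ c t := hmin.filter_mono nhdsWithin_le_nhds
  obtain ⟨b, hb, hbb⟩ := (mem_nhdsGT_iff_exists_Ioo_subset (a := t0)).1 (ev2.and ev3)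
  have hb' : t0 < b := hb
  set t1 := (t0 + b) / 2 with ht1
  have h01 : t0 < t1 := by rw [ht1]; linarith
  have h1b : t1 < b := by rw [ht1]; linarith
  obtain ⟨ξ, hξ, hξ2⟩ := exists_hasDerivAt_eq_slope c c' h01
    (fun x _ => (h1 x).continuousAt.continuousWithinAt) (fun x _ => h1 x)
  have hc1 : c t0 ≤ c t1 := (hbb ⟨h01, h1b⟩).2
  have hξ3 : slope c' t0 ξ < 0 := (hbb ⟨hξ.1, hξ.2.trans h1b⟩).1
  rw [slope_def_field, h0, sub_zero] at hξ3
  have hpos : 0 < ξ - t0 := sub_pos.2 hξ.1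
  have h4 : c' ξ < 0 := by
    by_contra h5
    push Not at h5
    exact absurd hξ3 (not_lt.2 (div_nonneg h5 hpos.le))
  rw [hξ2] at h4
  exact absurd h4 (not_lt.2 (div_nonneg (sub_nonneg.2 hc1) (sub_pos.2 h01).le))

/-- derivative at a left-minimum is nonpositive -/
lemma deriv_nonpos_of_left_min {c : ℝ → ℝ} {c' s : ℝ} (h1 : HasDerivAt c c' s) (hs : 0 < s)
    (hmin : ∀ t ∈ Icc 0 s, c s ≤ c t) : c' ≤ 0 := by
  have h2 := hasDerivAt_iff_tendsto_slope.1 h1
  have h3 : Tendsto (slope c s) (𝓝[<] s) (𝓝 c') :=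
    h2.mono_left (nhdsWithin_mono _ (fun x hx => ne_of_lt hx))
  refine le_of_tendsto h3 ?_
  have : Ioo 0 s ∈ 𝓝[<] s := Ioo_mem_nhdsLT hs
  filter_upwards [this] with t ht
  rw [slope_def_field]
  have := hmin t ⟨ht.1.le, ht.2.le⟩
  exact div_nonpos_of_nonneg_of_nonpos (sub_nonneg.2 this) (sub_nonpos.2 ht.2.le)

section

variable {L M : ℝ} {f f' f'' g g' g'' h h' h'' : ℝ → ℝ}

/-- linear growth bound -/
lemma exists_growth (hf : Nice L M f f' f'') : ∃ A, 0 ≤ A ∧ ∀ s ∈ Icc (0:ℝ) 1, ∀ y, |fl f s y| ≤ A + L * |y| := by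
  have hc : ContinuousOn (fun s => |fl f s 0|) (Icc (0:ℝ) 1) := by
    have := continuous_fl hf.cont
    exact (this.comp (continuous_id.prodMk continuous_const)).abs.continuousOn
  obtain ⟨s0, hs0, hmax⟩ := isCompact_Icc.exists_isMaxOn (nonempty_Icc.2 zero_le_one) hc
  refine ⟨|fl f s0 0|, abs_nonneg _, fun s hs y => ?_⟩
  have h1 := fl_lip hf.cont hf.lip s y 0
  have h2 : |fl f s 0| ≤ |fl f s0 0| := hmax hs
  have h3 : |fl f s y| ≤ |fl f s y - fl f s 0| + |fl f s 0| := by
    simpa using abs_add_le (fl f s y - fl f s 0) (fl f s 0)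
  simp only [sub_zero] at h1
  linarith

/-- the algebraic heart of the maximum principle -/
lemma alg_core {A L K q y z F G H Fy Gy p Fyy Gyy Hyy : ℝ} (hA : 0 ≤ A) (hL : 0 ≤ L) (hq : 0 < q)
    (hK : K = 5 + 8 * L * (A + L)) (hF : |F| ≤ A + L * |y|) (hG : |G| ≤ A + L * |z|)
    (hFy : |Fy| ≤ L) (hGy : |Gy| ≤ L) (hp : |p| ≤ L)
    (e1 : Fy = p + 4 * q * y) (e2 : Gy = p + 4 * q * z)
    (hneg : H - F / 2 - G / 2 ≤ 0) (h2 : 0 ≤ Hyy / 4 - Fyy / 2 + Hyy / 2 + Hyy / 4 - Gyy / 2 + 4 * q)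
    (ht : (Hyy - H * p ^ 2) - (Fyy - F * Fy ^ 2) / 2 - (Gyy - G * Gy ^ 2) / 2
      + q * K * (1 + y ^ 2 + z ^ 2) ≤ 0) : False := by
  have key : ∀ F Fy y : ℝ, |F| ≤ A + L * |y| → |Fy| ≤ L → Fy = p + 4 * q * y →
      -(4 * q * L * (A + L) * (1 + y ^ 2)) ≤ F * (Fy ^ 2 - p ^ 2) / 2 := by
    intro F Fy y hF hFy e
    have h1 : F * (Fy ^ 2 - p ^ 2) / 2 = 2 * q * (F * y * (Fy + p)) := by
      have : Fy ^ 2 - p ^ 2 = 4 * q * y * (Fy + p) := by rw [e]; ring
      rw [this]; ring
    rw [h1]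
    have h2 : |F * y * (Fy + p)| ≤ (A + L * |y|) * |y| * (2 * L) := by
      rw [abs_mul, abs_mul]
      have h3 : |Fy + p| ≤ 2 * L := (abs_add_le _ _).trans (by linarith)
      exact mul_le_mul (mul_le_mul_of_nonneg_right hF (abs_nonneg y)) h3 (abs_nonneg _)
        (by positivity)
    have h4 : (A + L * |y|) * |y| ≤ (A + L) * (1 + y ^ 2) := by
      have h5 : |y| ≤ 1 + y ^ 2 := by
        have := sq_abs y
        nlinarith [sq_nonneg (|y| - 1), abs_nonneg y]
      have h6 : |y| * |y| = y ^ 2 := by rw [← sq, sq_abs]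
      nlinarith [mul_le_mul_of_nonneg_left h5 hA, abs_nonneg y, sq_nonneg y]
    have h7 : |F * y * (Fy + p)| ≤ (A + L) * (1 + y ^ 2) * (2 * L) :=
      h2.trans (mul_le_mul_of_nonneg_right h4 (by positivity))
    have h8 := (abs_le.1 h7).1
    nlinarith [mul_le_mul_of_nonneg_left h8 (by positivity : (0:ℝ) ≤ 2 * q)]
  have k1 := key F Fy y hF hFy e1
  have k2 := key G Gy z hG hGy e2
  have k3 : p ^ 2 * (H - F / 2 - G / 2) ≤ 0 := mul_nonpos_of_nonneg_of_nonpos (sq_nonneg p) hneg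
  have k4 : 0 ≤ q * L * (A + L) * y ^ 2 := by positivity
  have k5 : 0 ≤ q * L * (A + L) * z ^ 2 := by positivity
  have k6 : 0 ≤ q * L * (A + L) := by positivity
  have k7 : 0 ≤ q * y ^ 2 := by positivity
  have k8 : 0 ≤ q * z ^ 2 := by positivity
  rw [hK] at ht
  nlinarith

theorem ehrhard_smooth (hf : Nice L M f f' f'') (hg : Nice L M g g' g'') (hh : Nice L M h h' h'')
    (H : ∀ y z, (f y + g z) / 2 ≤ h ((y + z) / 2)) :
    (gm γ f + gm γ g) / 2 ≤ gm γ h := by
  by_contra hcon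
  push Not at hcon
  obtain ⟨Af, hAf0, hAf⟩ := exists_growth hf
  obtain ⟨Ag, hAg0, hAg⟩ := exists_growth hg
  obtain ⟨Ah, hAh0, hAh⟩ := exists_growth hh
  have hL := hf.L_nonneg
  set A := Af + Ag + Ah with hA
  have hA0 : 0 ≤ A := by positivity
  have gf : ∀ s ∈ Icc (0:ℝ) 1, ∀ y, |fl f s y| ≤ A + L * |y| := fun s hs y =>
    (hAf s hs y).trans (by rw [hA]; linarith)
  have gg : ∀ s ∈ Icc (0:ℝ) 1, ∀ y, |fl g s y| ≤ A + L * |y| := fun s hs y =>
    (hAg s hs y).trans (by rw [hA]; linarith)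
  have gh : ∀ s ∈ Icc (0:ℝ) 1, ∀ y, |fl h s y| ≤ A + L * |y| := fun s hs y =>
    (hAh s hs y).trans (by rw [hA]; linarith)
  set K : ℝ := 5 + 8 * L * (A + L) with hK
  have hK0 : 0 < K := by positivity
  set δ : ℝ := (gm γ f + gm γ g) / 2 - gm γ h with hδ
  have hδ0 : 0 < δ := sub_pos.2 hcon
  set ε : ℝ := δ / (2 * Real.exp (K / 2)) with hε
  have hε0 : 0 < ε := by positivity
  -- the comparison function
  let C : ℝ → ℝ → ℝ → ℝ := fun s y z =>
    fl h s ((y + z) / 2) - fl f s y / 2 - fl g s z / 2 + ε * Real.exp (K * s ^ 2 / 2) * (1 + y ^ 2 + z ^ 2)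
  have hCcont : Continuous (fun p : ℝ × ℝ × ℝ => C p.1 p.2.1 p.2.2) := by
    have c1 : Continuous (fun p : ℝ × ℝ × ℝ => fl h p.1 ((p.2.1 + p.2.2) / 2)) :=
      (continuous_fl hh.cont).comp (f := fun p : ℝ × ℝ × ℝ => (p.1, (p.2.1 + p.2.2) / 2)) (by fun_prop)
    have c2 : Continuous (fun p : ℝ × ℝ × ℝ => fl f p.1 p.2.1) :=
      (continuous_fl hf.cont).comp (f := fun p : ℝ × ℝ × ℝ => (p.1, p.2.1)) (by fun_prop)
    have c3 : Continuous (fun p : ℝ × ℝ × ℝ => fl g p.1 p.2.2) :=
      (continuous_fl hg.cont).comp (f := fun p : ℝ × ℝ × ℝ => (p.1, p.2.2)) (by fun_prop)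
    exact ((c1.sub (c2.div_const 2)).sub (c3.div_const 2)).add (by fun_prop)
  -- at time 1 it is negative somewhere
  have hC1 : C 1 0 0 < 0 := by
    have e1 : C 1 0 0 = -δ + ε * Real.exp (K / 2) := by
      simp only [C, add_zero, zero_div, fl_one_zero]
      rw [hδ]; ring_nf
    have e2 : ε * Real.exp (K / 2) = δ / 2 := by
      rw [hε]; field_simp
    rw [e1, e2]; linarith
  -- at time 0 it is positive
  have hC0 : ∀ y z, 0 < C 0 y z := by
    intro y z
    have e1 : C 0 y z = (h ((y + z) / 2) - (f y + g z) / 2) + ε * (1 + y ^ 2 + z ^ 2) := by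
      simp only [C, fl_zero]
      simp
      ring
    rw [e1]
    have := H y z
    have h2 : 0 < ε * (1 + y ^ 2 + z ^ 2) := by positivity
    linarith
  -- far away it is nonnegative
  set R : ℝ := (2 * A + 2 * L) / ε + 1 with hR
  have hR1 : 1 ≤ R := by
    have : 0 ≤ (2 * A + 2 * L) / ε := by positivity
    linarith
  have hfar : ∀ s ∈ Icc (0:ℝ) 1, ∀ y z, (R ≤ |y| ∨ R ≤ |z|) → 0 ≤ C s y z := by
    intro s hs y z hyz
    set m := max |y| |z| with hm
    have hmR : R ≤ m := by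
      rcases hyz with h | h
      · exact h.trans (le_max_left _ _)
      · exact h.trans (le_max_right _ _)
    have hy : |y| ≤ m := le_max_left _ _
    have hz : |z| ≤ m := le_max_right _ _
    have hm2 : m ^ 2 ≤ y ^ 2 + z ^ 2 := by
      rcases max_cases |y| |z| with h | h
      · rw [hm, h.1, sq_abs]; nlinarith [sq_nonneg z]
      · rw [hm, h.1, sq_abs]; nlinarith [sq_nonneg y]
    have b1 : -(A + L * m) ≤ fl h s ((y + z) / 2) := by
      have h1 := (abs_le.1 (gh s hs ((y + z) / 2))).1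
      have h2 : |(y + z) / 2| ≤ m := by
        rw [abs_div, abs_two]
        have := abs_add_le y z
        linarith
      nlinarith [mul_le_mul_of_nonneg_left h2 hL]
    have b2 : fl f s y ≤ A + L * m :=
      ((abs_le.1 (gf s hs y)).2).trans (by nlinarith [mul_le_mul_of_nonneg_left hy hL])
    have b3 : fl g s z ≤ A + L * m :=
      ((abs_le.1 (gg s hs z)).2).trans (by nlinarith [mul_le_mul_of_nonneg_left hz hL])
    have b4 : ε * (1 + y ^ 2 + z ^ 2) ≤ ε * Real.exp (K * s ^ 2 / 2) * (1 + y ^ 2 + z ^ 2) := by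
      have : 1 ≤ Real.exp (K * s ^ 2 / 2) := Real.one_le_exp (by positivity)
      have h2 : ε ≤ ε * Real.exp (K * s ^ 2 / 2) := by nlinarith
      exact mul_le_mul_of_nonneg_right h2 (by positivity)
    have b5 : 2 * A + 2 * L * m ≤ ε * m ^ 2 := by
      have h1 : (2 * A + 2 * L) / ε ≤ m := by linarith
      rw [div_le_iff₀ hε0] at h1
      have h1' : 1 ≤ m := hR1.trans hmR
      have h2 : (2 * A + 2 * L) * m ≤ m * ε * m := mul_le_mul_of_nonneg_right h1 (by linarith)
      have h3 : 2 * A ≤ 2 * A * m := by nlinarith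
      nlinarith
    have b6 : ε * m ^ 2 ≤ ε * (y ^ 2 + z ^ 2) := mul_le_mul_of_nonneg_left hm2 hε0.le
    simp only [C]
    nlinarith
  -- minimise over the compact box
  have hcomp : IsCompact ((Icc (0:ℝ) 1) ×ˢ ((Icc (-R) R) ×ˢ (Icc (-R) R))) :=
    isCompact_Icc.prod (isCompact_Icc.prod isCompact_Icc)
  have h00 : ((1:ℝ), (0:ℝ), (0:ℝ)) ∈ ((Icc (0:ℝ) 1) ×ˢ ((Icc (-R) R) ×ˢ (Icc (-R) R))) := by
    refine ⟨⟨zero_le_one, le_refl 1⟩, ⟨?_, ?_⟩, ⟨?_, ?_⟩⟩ <;> simp only <;> linarith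
  obtain ⟨⟨s, y, z⟩, hmem, hmin⟩ := hcomp.exists_isMinOn ⟨_, h00⟩ hCcont.continuousOn
  have hmin' : ∀ s' ∈ Icc (0:ℝ) 1, ∀ y' ∈ Icc (-R) R, ∀ z' ∈ Icc (-R) R, C s y z ≤ C s' y' z' :=
    fun s' hs' y' hy' z' hz' => hmin (a := (s', y', z')) ⟨hs', hy', hz'⟩
  have hs : s ∈ Icc (0:ℝ) 1 := hmem.1
  have hyR : y ∈ Icc (-R) R := hmem.2.1
  have hzR : z ∈ Icc (-R) R := hmem.2.2
  have hCneg : C s y z < 0 := (hmin' 1 h00.1 0 h00.2.1 0 h00.2.2).trans_lt hC1
  have hs0 : 0 < s := by
    rcases eq_or_lt_of_le hs.1 with h0 | h0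
    · exfalso; rw [← h0] at hCneg; exact absurd (hC0 y z) (not_lt.2 hCneg.le)
    · exact h0
  have hylt : |y| < R := by
    by_contra h1; push Not at h1
    exact absurd hCneg (not_lt.2 (hfar s hs y z (Or.inl h1)))
  have hzlt : |z| < R := by
    by_contra h1; push Not at h1
    exact absurd hCneg (not_lt.2 (hfar s hs y z (Or.inr h1)))
  have nhy : ∀ᶠ t in 𝓝 (0:ℝ), y + t ∈ Icc (-R) R := by
    have h1 : Tendsto (fun t : ℝ => y + t) (𝓝 0) (𝓝 (y + 0)) := (continuous_const.add continuous_id).tendsto 0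
    rw [add_zero] at h1
    exact h1.eventually (Icc_mem_nhds (abs_lt.1 hylt).1 (abs_lt.1 hylt).2)
  have nhz : ∀ᶠ t in 𝓝 (0:ℝ), z + t ∈ Icc (-R) R := by
    have h1 : Tendsto (fun t : ℝ => z + t) (𝓝 0) (𝓝 (z + 0)) := (continuous_const.add continuous_id).tendsto 0
    rw [add_zero] at h1
    exact h1.eventually (Icc_mem_nhds (abs_lt.1 hzlt).1 (abs_lt.1 hzlt).2)
  set q : ℝ := ε * Real.exp (K * s ^ 2 / 2) with hq
  have hq0 : 0 < q := by positivity
  set p := Nice.fy h h' s ((y + z) / 2) with hp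
  set Fy := Nice.fy f f' s y with hFy
  set Gy := Nice.fy g g' s z with hGy
  -- derivative in `y`
  have e1 : p / 2 - Fy / 2 + 2 * q * y = 0 := by
    have hd : HasDerivAt (fun t => C s (y + t) z) (p / 2 - Fy / 2 + 2 * q * y) 0 := by
      have i1 : HasDerivAt (fun t : ℝ => (y + t + z) / 2) (1 / 2) 0 :=
        (((hasDerivAt_id (0:ℝ)).const_add y).add_const z).div_const 2
      have i2 : HasDerivAt (fun t : ℝ => y + t) 1 0 := (hasDerivAt_id (0:ℝ)).const_add y
      have d1 : HasDerivAt (fun t : ℝ => fl h s ((y + t + z) / 2)) (p * (1 / 2)) 0 := by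
        refine HasDerivAt.comp (0:ℝ) (h₂ := fun w => fl h s w) ?_ i1
        simpa using hh.hfy s ((y + z) / 2)
      have d2 : HasDerivAt (fun t : ℝ => fl f s (y + t)) (Fy * 1) 0 := by
        refine HasDerivAt.comp (0:ℝ) (h₂ := fun w => fl f s w) ?_ i2
        simpa using hf.hfy s y
      have d3 : HasDerivAt (fun t : ℝ => 1 + (y + t) ^ 2 + z ^ 2) (2 * y) 0 := by
        refine (((i2.fun_pow 2).const_add 1).add_const (z ^ 2)).congr_deriv ?_
        simp
      refine (((d1.fun_sub (d2.div_const 2)).sub_const (fl g s z / 2)).fun_add (d3.const_mul q)).congr_deriv ?_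
      ring
    have hm : IsLocalMin (fun t => C s (y + t) z) 0 := by
      filter_upwards [nhy] with t ht
      simpa using hmin' s hs (y + t) ht z hzR
    exact hm.hasDerivAt_eq_zero hd
  have e2 : p / 2 - Gy / 2 + 2 * q * z = 0 := by
    have hd : HasDerivAt (fun t => C s y (z + t)) (p / 2 - Gy / 2 + 2 * q * z) 0 := by
      have i1 : HasDerivAt (fun t : ℝ => (y + (z + t)) / 2) (1 / 2) 0 :=
        (((hasDerivAt_id (0:ℝ)).const_add z).const_add y).div_const 2
      have i2 : HasDerivAt (fun t : ℝ => z + t) 1 0 := (hasDerivAt_id (0:ℝ)).const_add z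
      have d1 : HasDerivAt (fun t : ℝ => fl h s ((y + (z + t)) / 2)) (p * (1 / 2)) 0 := by
        refine HasDerivAt.comp (0:ℝ) (h₂ := fun w => fl h s w) ?_ i1
        simpa using hh.hfy s ((y + z) / 2)
      have d2 : HasDerivAt (fun t : ℝ => fl g s (z + t)) (Gy * 1) 0 := by
        refine HasDerivAt.comp (0:ℝ) (h₂ := fun w => fl g s w) ?_ i2
        simpa using hg.hfy s z
      have d3 : HasDerivAt (fun t : ℝ => 1 + y ^ 2 + (z + t) ^ 2) (2 * z) 0 := by
        refine ((i2.fun_pow 2).const_add (1 + y ^ 2)).congr_deriv ?_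
        simp
      refine (((d1.sub_const (fl f s y / 2)).fun_sub (d2.div_const 2)).fun_add (d3.const_mul q)).congr_deriv ?_
      ring
    have hm : IsLocalMin (fun t => C s y (z + t)) 0 := by
      filter_upwards [nhz] with t ht
      simpa using hmin' s hs y hyR (z + t) ht
    exact hm.hasDerivAt_eq_zero hd
  -- second derivative along the diagonal
  set Hyy := Nice.fyy h h' h'' s ((y + z) / 2) with hHyy
  set Fyy := Nice.fyy f f' f'' s y with hFyy
  set Gyy := Nice.fyy g g' g'' s z with hGyy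
  have e3 : 0 ≤ Hyy - Fyy / 2 - Gyy / 2 + 4 * q := by
    let c' : ℝ → ℝ := fun t => Nice.fy h h' s ((y + z) / 2 + t) - Nice.fy f f' s (y + t) / 2
      - Nice.fy g g' s (z + t) / 2 + q * (2 * (y + t) + 2 * (z + t))
    have i1 : ∀ t : ℝ, HasDerivAt (fun t : ℝ => (y + z) / 2 + t) 1 t :=
      fun t => (hasDerivAt_id t).const_add _
    have i2 : ∀ t : ℝ, HasDerivAt (fun t : ℝ => y + t) 1 t := fun t => (hasDerivAt_id t).const_add _
    have i3 : ∀ t : ℝ, HasDerivAt (fun t : ℝ => z + t) 1 t := fun t => (hasDerivAt_id t).const_add _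
    have hc1 : ∀ t, HasDerivAt (fun t => C s (y + t) (z + t)) (c' t) t := by
      intro t
      have d1 : HasDerivAt (fun t : ℝ => fl h s ((y + z) / 2 + t)) (Nice.fy h h' s ((y + z) / 2 + t) * 1) t :=
        HasDerivAt.comp t (h₂ := fun w => fl h s w) (hh.hfy s _) (i1 t)
      have d2 : HasDerivAt (fun t : ℝ => fl f s (y + t)) (Nice.fy f f' s (y + t) * 1) t :=
        HasDerivAt.comp t (h₂ := fun w => fl f s w) (hf.hfy s _) (i2 t)
      have d3 : HasDerivAt (fun t : ℝ => fl g s (z + t)) (Nice.fy g g' s (z + t) * 1) t :=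
        HasDerivAt.comp t (h₂ := fun w => fl g s w) (hg.hfy s _) (i3 t)
      have d4 : HasDerivAt (fun t : ℝ => 1 + (y + t) ^ 2 + (z + t) ^ 2) (2 * (y + t) + 2 * (z + t)) t := by
        refine ((((i2 t).fun_pow 2).const_add 1).fun_add ((i3 t).fun_pow 2)).congr_deriv ?_
        simp
      have e : (fun t => C s (y + t) (z + t)) = fun t => fl h s ((y + z) / 2 + t) - fl f s (y + t) / 2
          - fl g s (z + t) / 2 + q * (1 + (y + t) ^ 2 + (z + t) ^ 2) := by
        funext t
        have : (y + t + (z + t)) / 2 = (y + z) / 2 + t := by ring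
        simp only [C, this, hq]
      rw [e]
      refine (((d1.fun_sub (d2.div_const 2)).fun_sub (d3.div_const 2)).fun_add (d4.const_mul q)).congr_deriv ?_
      simp only [c']
      ring
    have hc2 : HasDerivAt c' (Hyy - Fyy / 2 - Gyy / 2 + 4 * q) 0 := by
      have d1 : HasDerivAt (fun t : ℝ => Nice.fy h h' s ((y + z) / 2 + t)) (Hyy * 1) 0 := by
        refine HasDerivAt.comp (0:ℝ) (h₂ := fun w => Nice.fy h h' s w) ?_ (i1 0)
        simpa using hh.hfyy s ((y + z) / 2)
      have d2 : HasDerivAt (fun t : ℝ => Nice.fy f f' s (y + t)) (Fyy * 1) 0 := by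
        refine HasDerivAt.comp (0:ℝ) (h₂ := fun w => Nice.fy f f' s w) ?_ (i2 0)
        simpa using hf.hfyy s y
      have d3 : HasDerivAt (fun t : ℝ => Nice.fy g g' s (z + t)) (Gyy * 1) 0 := by
        refine HasDerivAt.comp (0:ℝ) (h₂ := fun w => Nice.fy g g' s w) ?_ (i3 0)
        simpa using hg.hfyy s z
      have d4 : HasDerivAt (fun t : ℝ => 2 * (y + t) + 2 * (z + t)) 4 0 := by
        refine (((i2 0).const_mul 2).fun_add ((i3 0).const_mul 2)).congr_deriv ?_
        norm_num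
      refine (((d1.fun_sub (d2.div_const 2)).fun_sub (d3.div_const 2)).fun_add (d4.const_mul q)).congr_deriv ?_
      ring
    have hm : IsLocalMin (fun t => C s (y + t) (z + t)) 0 := by
      filter_upwards [nhy, nhz] with t ht ht'
      simpa using hmin' s hs (y + t) ht (z + t) ht'
    exact second_deriv_nonneg hc1 hc2 hm
  -- time derivative
  set F0 := fl f s y with hF0
  set G0 := fl g s z with hG0
  set H0 := fl h s ((y + z) / 2) with hH0
  have e4 : s * ((Hyy - H0 * p ^ 2) - (Fyy - F0 * Fy ^ 2) / 2 - (Gyy - G0 * Gy ^ 2) / 2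
      + q * K * (1 + y ^ 2 + z ^ 2)) ≤ 0 := by
    have hd : HasDerivAt (fun t => C t y z) (s * ((Hyy - H0 * p ^ 2) - (Fyy - F0 * Fy ^ 2) / 2
        - (Gyy - G0 * Gy ^ 2) / 2 + q * K * (1 + y ^ 2 + z ^ 2))) s := by
      have d1 := hh.hfs s ((y + z) / 2)
      have d2 := hf.hfs s y
      have d3 := hg.hfs s z
      have d4 : HasDerivAt (fun t : ℝ => K * t ^ 2 / 2) (K * s) s := by
        refine (((hasDerivAt_pow 2 s).const_mul K).div_const 2).congr_deriv ?_
        norm_num; ring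
      have d5 := ((d4.exp).const_mul ε).mul_const (1 + y ^ 2 + z ^ 2)
      refine (((d1.fun_sub (d2.div_const 2)).fun_sub (d3.div_const 2)).fun_add d5).congr_deriv ?_
      rw [hq]
      ring
    refine deriv_nonpos_of_left_min hd hs0 ?_
    intro t ht
    exact hmin' t ⟨ht.1, ht.2.trans hs.2⟩ y hyR z hzR
  have e5 : (Hyy - H0 * p ^ 2) - (Fyy - F0 * Fy ^ 2) / 2 - (Gyy - G0 * Gy ^ 2) / 2
      + q * K * (1 + y ^ 2 + z ^ 2) ≤ 0 := by
    by_contra h1
    push Not at h1
    exact absurd (mul_pos hs0 h1) (not_lt.2 e4)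
  have e6 : H0 - F0 / 2 - G0 / 2 ≤ 0 := by
    have h1 : C s y z = H0 - F0 / 2 - G0 / 2 + q * (1 + y ^ 2 + z ^ 2) := rfl
    have h2 : 0 < q * (1 + y ^ 2 + z ^ 2) := by positivity
    linarith
  refine alg_core hA0 hL hq0 hK (gf s hs y) (gg s hs z) (hf.bfy s y) (hg.bfy s z) (hh.bfy s ((y + z) / 2))
    (p := p) (Fy := Fy) (Gy := Gy) (Fyy := Fyy) (Gyy := Gyy) (Hyy := Hyy) (H := H0) ?_ ?_ e6 ?_ e5
  · linarith
  · linarith
  · linarith

end

end Crest.Agent.Lib.Ehrhard
end

-- ▼ part Lib/Ehrhard/Lip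
section

set_option autoImplicit false
open MeasureTheory ProbabilityTheory Set Filter Topology
open scoped NNReal ENNReal

namespace Crest.Agent.Lib.Ehrhard

/-- moving average -/
noncomputable def av (ε : ℝ) (f : ℝ → ℝ) (y : ℝ) : ℝ := ε⁻¹ * ∫ s in (0:ℝ)..ε, f (y + s)

lemma cont_of_lip {f : ℝ → ℝ} {L : ℝ} (hf : ∀ x y, |f x - f y| ≤ L * |x - y|) : Continuous f := by
  have h : LipschitzWith (Real.toNNReal |L|) f := by
    refine LipschitzWith.of_dist_le_mul fun x y => ?_
    rw [Real.dist_eq, Real.dist_eq, Real.coe_toNNReal _ (abs_nonneg L)]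
    exact (hf x y).trans (mul_le_mul_of_nonneg_right (le_abs_self L) (abs_nonneg _))
  exact h.continuous

lemma av_hasDerivAt {ε : ℝ} {f : ℝ → ℝ} (hf : Continuous f) (y : ℝ) :
    HasDerivAt (av ε f) (ε⁻¹ * (f (y + ε) - f y)) y := by
  have e : av ε f = fun y => ε⁻¹ * ((∫ w in (0:ℝ)..(y + ε), f w) - ∫ w in (0:ℝ)..y, f w) := by
    ext y
    unfold av
    rw [intervalIntegral.integral_comp_add_left, add_zero,
      intervalIntegral.integral_interval_sub_left (hf.intervalIntegrable _ _) (hf.intervalIntegrable _ _)]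
  rw [e]
  have h1 : ∀ y, HasDerivAt (fun y => ∫ w in (0:ℝ)..y, f w) (f y) y := fun y =>
    intervalIntegral.integral_hasDerivAt_right (hf.intervalIntegrable _ _)
      (hf.stronglyMeasurableAtFilter _ _) hf.continuousAt
  exact (((h1 (y + ε)).comp_add_const y ε).fun_sub (h1 y)).const_mul _

lemma av_const {ε : ℝ} (hε : 0 < ε) (c : ℝ) : ε⁻¹ * ∫ _s in (0:ℝ)..ε, c = c := by
  rw [intervalIntegral.integral_const]
  simp only [sub_zero, smul_eq_mul]
  field_simp

lemma av_lip {ε : ℝ} (hε : 0 < ε) {f : ℝ → ℝ} {L : ℝ} (hf : ∀ x y, |f x - f y| ≤ L * |x - y|) (x y : ℝ) :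
    |av ε f x - av ε f y| ≤ L * |x - y| := by
  have hc := cont_of_lip hf
  unfold av
  rw [← mul_sub, ← intervalIntegral.integral_sub
    ((by fun_prop : Continuous fun s => f (x + s)).intervalIntegrable _ _)
    ((by fun_prop : Continuous fun s => f (y + s)).intervalIntegrable _ _), abs_mul,
    abs_of_pos (inv_pos.2 hε)]
  have h1 : ‖∫ s in (0:ℝ)..ε, (f (x + s) - f (y + s))‖ ≤ (L * |x - y|) * |ε - 0| := by
    refine intervalIntegral.norm_integral_le_of_norm_le_const fun s _ => ?_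
    have := hf (x + s) (y + s)
    simpa using this
  rw [Real.norm_eq_abs] at h1
  rw [sub_zero, abs_of_pos hε] at h1
  calc _ ≤ ε⁻¹ * (L * |x - y| * ε) := mul_le_mul_of_nonneg_left h1 (inv_pos.2 hε).le
    _ = _ := by field_simp

lemma av_close {ε : ℝ} (hε : 0 < ε) {f : ℝ → ℝ} {L : ℝ} (hL : 0 ≤ L)
    (hf : ∀ x y, |f x - f y| ≤ L * |x - y|) (x : ℝ) : |av ε f x - f x| ≤ L * ε := by
  have hc := cont_of_lip hf
  have e : av ε f x - f x = ε⁻¹ * ∫ s in (0:ℝ)..ε, (f (x + s) - f x) := by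
    rw [intervalIntegral.integral_sub
      ((by fun_prop : Continuous fun s => f (x + s)).intervalIntegrable _ _)
      (continuous_const.intervalIntegrable _ _), mul_sub, av_const hε]
    rfl
  rw [e, abs_mul, abs_of_pos (inv_pos.2 hε)]
  have h1 : ‖∫ s in (0:ℝ)..ε, (f (x + s) - f x)‖ ≤ (L * ε) * |ε - 0| := by
    refine intervalIntegral.norm_integral_le_of_norm_le_const fun s hs => ?_
    rw [uIoc_of_le hε.le] at hs
    have := hf (x + s) x
    rw [add_sub_cancel_left, abs_of_pos hs.1] at this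
    exact this.trans (mul_le_mul_of_nonneg_left hs.2 hL)
  rw [Real.norm_eq_abs] at h1
  rw [sub_zero, abs_of_pos hε] at h1
  calc _ ≤ ε⁻¹ * (L * ε * ε) := mul_le_mul_of_nonneg_left h1 (inv_pos.2 hε).le
    _ = _ := by field_simp

lemma av_mid {ε : ℝ} (hε : 0 < ε) {f g h : ℝ → ℝ} (hf : Continuous f) (hg : Continuous g)
    (hh : Continuous h) (H : ∀ y z, (f y + g z) / 2 ≤ h ((y + z) / 2)) (y z : ℝ) :
    (av ε f y + av ε g z) / 2 ≤ av ε h ((y + z) / 2) := by
  unfold av
  rw [← mul_add, mul_div_assoc]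
  refine mul_le_mul_of_nonneg_left ?_ (inv_pos.2 hε).le
  rw [← intervalIntegral.integral_add
    ((by fun_prop : Continuous fun s => f (y + s)).intervalIntegrable _ _)
    ((by fun_prop : Continuous fun s => g (z + s)).intervalIntegrable _ _),
    ← intervalIntegral.integral_div]
  refine intervalIntegral.integral_mono_on hε.le
    ((by fun_prop : Continuous fun s => (f (y + s) + g (z + s)) / 2).intervalIntegrable _ _)
    ((by fun_prop : Continuous fun s => h ((y + z) / 2 + s)).intervalIntegrable _ _) ?_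
  intro s _
  have := H (y + s) (z + s)
  have e : (y + s + (z + s)) / 2 = (y + z) / 2 + s := by ring
  rwa [e] at this

lemma nice_av_av {ε : ℝ} (hε : 0 < ε) {f : ℝ → ℝ} {L : ℝ}
    (hf : ∀ x y, |f x - f y| ≤ L * |x - y|) :
    Nice L (2 * L / ε) (av ε (av ε f)) (fun y => ε⁻¹ * (av ε f (y + ε) - av ε f y))
      (fun y => ε⁻¹ * (ε⁻¹ * (f (y + ε + ε) - f (y + ε)) - ε⁻¹ * (f (y + ε) - f y))) := by
  have hc := cont_of_lip hf
  have hc1 := cont_of_lip (av_lip hε hf)
  have hL0 : 0 ≤ L := by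
    have := (abs_nonneg _).trans (hf 1 0)
    simpa using this
  refine ⟨fun x => av_hasDerivAt hc1 x, fun x => ?_, by fun_prop, fun x => ?_, fun x => ?_⟩
  · exact (((av_hasDerivAt hc (x + ε)).comp_add_const x ε).fun_sub (av_hasDerivAt hc x)).const_mul _
  · rw [abs_mul, abs_of_pos (inv_pos.2 hε)]
    have := av_lip hε hf (x + ε) x
    rw [add_sub_cancel_left, abs_of_pos hε] at this
    calc _ ≤ ε⁻¹ * (L * ε) := mul_le_mul_of_nonneg_left this (inv_pos.2 hε).le
      _ = L := by field_simp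
  · have h1 := hf (x + ε + ε) (x + ε)
    have h2 := hf (x + ε) x
    rw [add_sub_cancel_left, abs_of_pos hε] at h1 h2
    rw [← mul_sub, abs_mul, abs_mul, abs_of_pos (inv_pos.2 hε)]
    have h3 : |f (x + ε + ε) - f (x + ε) - (f (x + ε) - f x)| ≤ 2 * (L * ε) :=
      (abs_sub _ _).trans (by linarith)
    calc _ ≤ ε⁻¹ * (ε⁻¹ * (2 * (L * ε))) :=
          mul_le_mul_of_nonneg_left (mul_le_mul_of_nonneg_left h3 (inv_pos.2 hε).le) (inv_pos.2 hε).le
      _ = 2 * L / ε := by field_simp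

/-- one-dimensional functional Ehrhard inequality (midpoint form) for Lipschitz functions -/
theorem ehrhard_lip {f g h : ℝ → ℝ} {L : ℝ} (hf : ∀ x y, |f x - f y| ≤ L * |x - y|)
    (hg : ∀ x y, |g x - g y| ≤ L * |x - y|) (hh : ∀ x y, |h x - h y| ≤ L * |x - y|)
    (H : ∀ y z, (f y + g z) / 2 ≤ h ((y + z) / 2)) :
    (gm γ f + gm γ g) / 2 ≤ gm γ h := by
  have hL0 : 0 ≤ L := by
    have := (abs_nonneg _).trans (hf 1 0)
    simpa using this
  have cf := cont_of_lip hf
  have cg := cont_of_lip hg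
  have ch := cont_of_lip hh
  have key : ∀ ε : ℝ, 0 < ε → (gm γ f + gm γ g) / 2 ≤ gm γ h + 4 * L * ε := by
    intro ε hε
    have cf1 := cont_of_lip (av_lip hε hf)
    have cg1 := cont_of_lip (av_lip hε hg)
    have ch1 := cont_of_lip (av_lip hε hh)
    have cf2 := cont_of_lip (av_lip hε (av_lip hε hf))
    have cg2 := cont_of_lip (av_lip hε (av_lip hε hg))
    have ch2 := cont_of_lip (av_lip hε (av_lip hε hh))
    have h1 := ehrhard_smooth (nice_av_av hε hf) (nice_av_av hε hg) (nice_av_av hε hh)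
      (av_mid hε cf1 cg1 ch1 (av_mid hε cf cg ch H))
    have close : ∀ {f : ℝ → ℝ}, (∀ x y, |f x - f y| ≤ L * |x - y|) →
        |gm γ (av ε (av ε f)) - gm γ f| ≤ 2 * L * ε := by
      intro f hf
      have cf := cont_of_lip hf
      have cf2 := cont_of_lip (av_lip hε (av_lip hε hf))
      refine abs_gm_sub_le γ cf2.aemeasurable cf.aemeasurable fun x => ?_
      have a1 := av_close hε hL0 (av_lip hε hf) x
      have a2 := av_close hε hL0 hf x
      have : av ε (av ε f) x - f x = (av ε (av ε f) x - av ε f x) + (av ε f x - f x) := by ring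
      rw [this]
      exact (abs_add_le _ _).trans (by linarith)
    have c1 := (abs_le.1 (close hf)).1
    have c2 := (abs_le.1 (close hg)).1
    have c3 := (abs_le.1 (close hh)).2
    linarith
  refine le_of_forall_pos_le_add fun δ hδ => ?_
  have h1 := key (δ / (4 * L + 1)) (by positivity)
  have h2 : 4 * L * (δ / (4 * L + 1)) ≤ δ := by
    rw [← mul_div_assoc, div_le_iff₀ (by positivity)]
    nlinarith
  linarith

/-! ### Tensorisation -/

lemma cont_of_lip' {E : Type*} [SeminormedAddCommGroup E] {f : E → ℝ} {L : ℝ}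
    (hf : ∀ x y, |f x - f y| ≤ L * ‖x - y‖) : Continuous f := by
  have h : LipschitzWith (Real.toNNReal |L|) f := by
    refine LipschitzWith.of_dist_le_mul fun x y => ?_
    rw [Real.dist_eq, dist_eq_norm, Real.coe_toNNReal _ (abs_nonneg L)]
    exact (hf x y).trans (mul_le_mul_of_nonneg_right (le_abs_self L) (norm_nonneg _))
  exact h.continuous

lemma norm_cons_sub_cons_left {n : ℕ} (a b : ℝ) (x : Fin n → ℝ) :
    ‖(Fin.cons a x : Fin (n + 1) → ℝ) - Fin.cons b x‖ ≤ |a - b| := by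
  refine (pi_norm_le_iff_of_nonneg (abs_nonneg _)).2 fun i => ?_
  refine Fin.cases ?_ (fun j => ?_) i
  · simp
  · simp

lemma norm_cons_sub_cons_right {n : ℕ} (a : ℝ) (x y : Fin n → ℝ) :
    ‖(Fin.cons a x : Fin (n + 1) → ℝ) - Fin.cons a y‖ ≤ ‖x - y‖ := by
  refine (pi_norm_le_iff_of_nonneg (norm_nonneg _)).2 fun i => ?_
  refine Fin.cases ?_ (fun j => ?_) i
  · simp
  · simpa using norm_le_pi_norm (x - y) j

lemma continuous_cons {n : ℕ} : Continuous (fun p : ℝ × (Fin n → ℝ) => (Fin.cons p.1 p.2 : Fin (n + 1) → ℝ)) := by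
  refine continuous_pi fun i => ?_
  refine Fin.cases ?_ (fun j => ?_) i
  · simpa using continuous_fst
  · simp only [Fin.cons_succ]; fun_prop

lemma integral_pi_succ {n : ℕ} {F : (Fin (n + 1) → ℝ) → ℝ}
    (hF : Integrable (fun p : ℝ × (Fin n → ℝ) => F (Fin.cons p.1 p.2))
      (γ.prod (Measure.pi fun _ : Fin n => γ))) :
    ∫ x, F x ∂(Measure.pi fun _ : Fin (n + 1) => γ)
      = ∫ x, (∫ a, F (Fin.cons a x) ∂γ) ∂(Measure.pi fun _ : Fin n => γ) := by
  have mp := (measurePreserving_piFinSuccAbove (fun _ : Fin (n + 1) => γ) 0).symm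
  have h1 := mp.integral_comp (MeasurableEquiv.measurableEmbedding _) F
  rw [← h1]
  have e : ∀ p : ℝ × (Fin n → ℝ), (MeasurableEquiv.piFinSuccAbove (fun _ : Fin (n + 1) => ℝ) 0).symm p
      = Fin.cons p.1 p.2 := by
    intro p
    simp [MeasurableEquiv.piFinSuccAbove]
    rfl
  simp only [e]
  exact integral_prod_symm _ hF

lemma gm_pi_succ {n : ℕ} {f : (Fin (n + 1) → ℝ) → ℝ} (hf : Continuous f) :
    gm (Measure.pi fun _ : Fin (n + 1) => γ) f
      = gm (Measure.pi fun _ : Fin n => γ) (fun x => gm γ (fun a => f (Fin.cons a x))) := by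
  have h1 : ∀ x : Fin n → ℝ, Phi (gm γ (fun a => f (Fin.cons a x))) = ∫ a, Phi (f (Fin.cons a x)) ∂γ := by
    intro x
    refine Phi_gm γ (Continuous.aemeasurable ?_)
    exact hf.comp (continuous_cons.comp (by fun_prop : Continuous fun a : ℝ => (a, x)))
  unfold gm at h1 ⊢
  simp only [h1]
  rw [integral_pi_succ]
  refine integrable_Phi_comp _ (Continuous.aemeasurable ?_)
  exact hf.comp continuous_cons

theorem ehrhard_pi (n : ℕ) : ∀ {f g h : (Fin n → ℝ) → ℝ} {L : ℝ},
    (∀ x y, |f x - f y| ≤ L * ‖x - y‖) →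
    (∀ x y, |g x - g y| ≤ L * ‖x - y‖) → (∀ x y, |h x - h y| ≤ L * ‖x - y‖) →
    (∀ y z, (f y + g z) / 2 ≤ h ((2:ℝ)⁻¹ • (y + z))) →
    (gm (Measure.pi fun _ : Fin n => γ) f + gm (Measure.pi fun _ : Fin n => γ) g) / 2
      ≤ gm (Measure.pi fun _ : Fin n => γ) h := by
  induction n with
  | zero =>
    intro f g h L hf hg hh H
    have e : ∀ f : (Fin 0 → ℝ) → ℝ, gm (Measure.pi fun _ : Fin 0 => γ) f = f 0 := by
      intro f
      unfold gm
      rw [Measure.pi_of_empty (fun _ : Fin 0 => γ) 0]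
      simp
    rw [e, e, e]
    have := H 0 0
    simpa using this
  | succ n ih =>
    intro f g h L hf hg hh H
    have hL0 : 0 ≤ L := by
      have := (abs_nonneg _).trans (hf (fun _ => 1) 0)
      have h2 : ‖(fun _ : Fin (n + 1) => (1:ℝ)) - 0‖ = 1 := by
        rw [sub_zero, pi_norm_const]; simp
      rw [h2] at this
      linarith
    have cf := cont_of_lip' hf
    have cg := cont_of_lip' hg
    have ch := cont_of_lip' hh
    have cc : ∀ {f : (Fin (n + 1) → ℝ) → ℝ}, Continuous f → ∀ x : Fin n → ℝ,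
        Continuous (fun a : ℝ => f (Fin.cons a x)) := fun hf x =>
      hf.comp (continuous_cons.comp (by fun_prop : Continuous fun a : ℝ => (a, x)))
    rw [gm_pi_succ cf, gm_pi_succ cg, gm_pi_succ ch]
    have lip1 : ∀ {f : (Fin (n + 1) → ℝ) → ℝ}, (∀ x y, |f x - f y| ≤ L * ‖x - y‖) →
        ∀ x y, |gm γ (fun a => f (Fin.cons a x)) - gm γ (fun a => f (Fin.cons a y))| ≤ L * ‖x - y‖ := by
      intro f hf x y
      have cf := cont_of_lip' hf
      refine abs_gm_sub_le γ (cc cf x).aemeasurable (cc cf y).aemeasurable fun a => ?_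
      exact (hf _ _).trans (mul_le_mul_of_nonneg_left (norm_cons_sub_cons_right a x y) hL0)
    have lip0 : ∀ {f : (Fin (n + 1) → ℝ) → ℝ}, (∀ x y, |f x - f y| ≤ L * ‖x - y‖) →
        ∀ x : Fin n → ℝ, ∀ a b : ℝ, |f (Fin.cons a x) - f (Fin.cons b x)| ≤ L * |a - b| := by
      intro f hf x a b
      exact (hf _ _).trans (mul_le_mul_of_nonneg_left (norm_cons_sub_cons_left a b x) hL0)
    refine ih (lip1 hf) (lip1 hg) (lip1 hh) ?_
    intro y z
    refine ehrhard_lip (lip0 hf y) (lip0 hg z) (lip0 hh _) ?_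
    intro a b
    have := H (Fin.cons a y) (Fin.cons b z)
    have e : (2:ℝ)⁻¹ • ((Fin.cons a y : Fin (n + 1) → ℝ) + Fin.cons b z)
        = Fin.cons ((a + b) / 2) ((2:ℝ)⁻¹ • (y + z)) := by
      ext i
      refine Fin.cases ?_ (fun j => ?_) i
      · simp; ring
      · simp; ring
    rwa [e] at this

/-! ### Standard Gaussian measure -/

section std

variable {E : Type*} [NormedAddCommGroup E] [InnerProductSpace ℝ E] [FiniteDimensional ℝ E]
  [MeasurableSpace E] [BorelSpace E]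

/-- Functional Ehrhard inequality (midpoint form) for the standard Gaussian measure. -/
theorem ehrhard_std {f g h : E → ℝ} {L : ℝ} (hf : ∀ x y, |f x - f y| ≤ L * ‖x - y‖)
    (hg : ∀ x y, |g x - g y| ≤ L * ‖x - y‖) (hh : ∀ x y, |h x - h y| ≤ L * ‖x - y‖)
    (H : ∀ y z, (f y + g z) / 2 ≤ h ((2:ℝ)⁻¹ • (y + z))) :
    (gm (stdGaussian E) f + gm (stdGaussian E) g) / 2 ≤ gm (stdGaussian E) h := by
  let T : (Fin (Module.finrank ℝ E) → ℝ) →ₗ[ℝ] E :=
    { toFun := fun x => ∑ i, x i • stdOrthonormalBasis ℝ E i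
      map_add' := fun x y => by simp [add_smul, Finset.sum_add_distrib]
      map_smul' := fun c x => by simp [Finset.smul_sum, smul_smul] }
  let T' := LinearMap.toContinuousLinearMap T
  have hT : ∀ x, T' x = ∑ i, x i • stdOrthonormalBasis ℝ E i := fun x => rfl
  have hgm : ∀ f : E → ℝ, Continuous f → gm (stdGaussian E) f =
      gm (Measure.pi fun _ : Fin (Module.finrank ℝ E) => γ) (fun x => f (T' x)) := by
    intro f hf
    have h1 := integral_map (μ := Measure.pi fun _ : Fin (Module.finrank ℝ E) => γ)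
      (φ := fun x => ∑ i, x i • stdOrthonormalBasis ℝ E i) (f := fun x => Phi (f x))
      (Measurable.aemeasurable (by fun_prop)) (continuous_Phi.comp hf).aestronglyMeasurable
    unfold gm stdGaussian
    rw [h1]
    rfl
  have hL0 : 0 ≤ |L| * ‖T'‖ := by positivity
  have lip : ∀ {f : E → ℝ}, (∀ x y, |f x - f y| ≤ L * ‖x - y‖) →
      ∀ x y, |f (T' x) - f (T' y)| ≤ (|L| * ‖T'‖) * ‖x - y‖ := by
    intro f hf x y
    calc |f (T' x) - f (T' y)| ≤ L * ‖T' x - T' y‖ := hf _ _
      _ ≤ |L| * ‖T' (x - y)‖ := by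
        rw [map_sub]; exact mul_le_mul_of_nonneg_right (le_abs_self L) (norm_nonneg _)
      _ ≤ |L| * (‖T'‖ * ‖x - y‖) := mul_le_mul_of_nonneg_left (T'.le_opNorm _) (abs_nonneg _)
      _ = _ := by ring
  rw [hgm f (cont_of_lip' hf), hgm g (cont_of_lip' hg), hgm h (cont_of_lip' hh)]
  refine ehrhard_pi _ (lip hf) (lip hg) (lip hh) ?_
  intro y z
  have := H (T' y) (T' z)
  rwa [← map_add, ← map_smul] at this

end std

end Crest.Agent.Lib.Ehrhard
end

-- ▼ part Lib/Ehrhard/Gain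

set_option autoImplicit false
open MeasureTheory ProbabilityTheory Set Filter Topology
open scoped NNReal ENNReal

namespace Crest.Agent.Lib.Ehrhard

section std

variable {E : Type*} [NormedAddCommGroup E] [InnerProductSpace ℝ E] [FiniteDimensional ℝ E]
  [MeasurableSpace E] [BorelSpace E]

/-- if `μ {D = t} = 0` then `E Phi (R (D - t)) → μ {t < D}` as `R → ∞`. -/
lemma tendsto_integral_Phi {Ω : Type*} [MeasurableSpace Ω] (μ : Measure Ω) [IsProbabilityMeasure μ]
    {D : Ω → ℝ} (hD : Measurable D) {t : ℝ} (h0 : μ {ω | D ω = t} = 0) :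
    Tendsto (fun R : ℕ => ∫ ω, Phi ((R:ℝ) * (D ω - t)) ∂μ) atTop (𝓝 (μ.real {ω | t < D ω})) := by
  have h1 : μ.real {ω | t < D ω} = ∫ ω, ({ω | t < D ω}).indicator (fun _ => (1:ℝ)) ω ∂μ := by
    rw [integral_indicator_const (1:ℝ) (measurableSet_lt measurable_const hD)]
    simp
  rw [h1]
  refine tendsto_integral_of_dominated_convergence (fun _ => (1:ℝ)) ?_ (integrable_const _) ?_ ?_
  · intro R
    exact (continuous_Phi.measurable.comp ((hD.sub_const t).const_mul (R:ℝ))).aestronglyMeasurable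
  · intro R
    refine Eventually.of_forall fun ω => ?_
    rw [Real.norm_of_nonneg (Phi_nonneg _)]
    exact (Phi_lt_one _).le
  · have hae : ∀ᵐ ω ∂μ, D ω ≠ t := by
      rw [ae_iff]; simpa using h0
    filter_upwards [hae] with ω hω
    rcases lt_or_gt_of_ne hω with h | h
    · have hn : ω ∉ {ω | t < D ω} := by simp only [mem_ofPred_eq, not_lt]; exact h.le
      rw [indicator_of_notMem hn]
      refine tendsto_Phi_atBot.comp ?_
      exact tendsto_natCast_atTop_atTop.atTop_mul_const_of_neg (sub_neg.2 h)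
    · rw [indicator_of_mem (show ω ∈ {ω | t < D ω} from h)]
      refine tendsto_Phi_atTop.comp ?_
      exact tendsto_natCast_atTop_atTop.atTop_mul_const (sub_pos.2 h)

/-- Ehrhard inequality for superlevel sets of a (midpoint) concave Lipschitz function. -/
theorem ehrhard_levels {D : E → ℝ} {L : ℝ} (hL : ∀ x y, |D x - D y| ≤ L * ‖x - y‖)
    (hD : ∀ x y, (D x + D y) / 2 ≤ D ((2:ℝ)⁻¹ • (x + y)))
    (h0 : ∀ t, stdGaussian E {x | D x = t} = 0) {s t : ℝ}
    (hs0 : 0 < (stdGaussian E).real {x | s < D x}) (hs1 : (stdGaussian E).real {x | s < D x} < 1)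
    (ht0 : 0 < (stdGaussian E).real {x | t < D x}) (ht1 : (stdGaussian E).real {x | t < D x} < 1)
    (hm0 : 0 < (stdGaussian E).real {x | (s + t) / 2 < D x})
    (hm1 : (stdGaussian E).real {x | (s + t) / 2 < D x} < 1) :
    (Psi ((stdGaussian E).real {x | s < D x}) + Psi ((stdGaussian E).real {x | t < D x})) / 2
      ≤ Psi ((stdGaussian E).real {x | (s + t) / 2 < D x}) := by
  have cD := cont_of_lip' hL
  have lim : ∀ u : ℝ, 0 < (stdGaussian E).real {x | u < D x} → (stdGaussian E).real {x | u < D x} < 1 →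
      Tendsto (fun R : ℕ => gm (stdGaussian E) (fun x => (R:ℝ) * (D x - u))) atTop
        (𝓝 (Psi ((stdGaussian E).real {x | u < D x}))) := by
    intro u h1 h2
    exact (continuousAt_Psi h1 h2).tendsto.comp (tendsto_integral_Phi _ cD.measurable (h0 u))
  refine le_of_tendsto_of_tendsto' (((lim s hs0 hs1).add (lim t ht0 ht1)).div_const 2)
    (lim _ hm0 hm1) fun R => ?_
  have lip : ∀ u : ℝ, ∀ x y : E, |(R:ℝ) * (D x - u) - (R:ℝ) * (D y - u)| ≤ ((R:ℝ) * L) * ‖x - y‖ := by
    intro u x y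
    have : (R:ℝ) * (D x - u) - (R:ℝ) * (D y - u) = (R:ℝ) * (D x - D y) := by ring
    rw [this, abs_mul, Nat.abs_cast, mul_assoc]
    exact mul_le_mul_of_nonneg_left (hL x y) (Nat.cast_nonneg _)
  refine ehrhard_std (lip s) (lip t) (lip _) ?_
  intro y z
  have h1 := mul_le_mul_of_nonneg_left (hD y z) (Nat.cast_nonneg (α := ℝ) R)
  have e : ((R:ℝ) * (D y - s) + (R:ℝ) * (D z - t)) / 2
      = (R:ℝ) * ((D y + D z) / 2) - (R:ℝ) * ((s + t) / 2) := by ring
  have e2 : (R:ℝ) * (D ((2:ℝ)⁻¹ • (y + z)) - (s + t) / 2)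
      = (R:ℝ) * D ((2:ℝ)⁻¹ • (y + z)) - (R:ℝ) * ((s + t) / 2) := by ring
  rw [e, e2]
  linarith

/-- tangent line bound: `P(D > t) ≤ Phi (b - t ρ / phi b)`, `b = Psi (P (D > 0))`. -/
theorem tangent_bound {D : E → ℝ} {L : ℝ} (hL : ∀ x y, |D x - D y| ≤ L * ‖x - y‖)
    (hD : ∀ x y, (D x + D y) / 2 ≤ D ((2:ℝ)⁻¹ • (x + y)))
    (h0 : ∀ t, stdGaussian E {x | D x = t} = 0)
    (hp0 : 0 < (stdGaussian E).real {x | 0 < D x}) (hp1 : (stdGaussian E).real {x | 0 < D x} < 1)
    {ρ : ℝ} (hder : HasDerivWithinAt (fun t => (stdGaussian E).real {x | t < D x}) (-ρ) (Ioi 0) 0)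
    {t : ℝ} (ht : 0 ≤ t) :
    (stdGaussian E).real {x | t < D x} ≤ Phi (Psi ((stdGaussian E).real {x | 0 < D x})
      - t * (ρ / phi (Psi ((stdGaussian E).real {x | 0 < D x})))) := by
  set P : ℝ → ℝ := fun t => (stdGaussian E).real {x | t < D x} with hP
  set b : ℝ := Psi (P 0) with hb
  change P t ≤ Phi (b - t * (ρ / phi b))
  rcases eq_or_lt_of_le ht with h | htpos
  · rw [← h]
    simp only [zero_mul, sub_zero]
    rw [hb, Phi_Psi hp0 hp1]
  have hanti : ∀ u v, u ≤ v → P v ≤ P u := by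
    intro u v huv
    exact measureReal_mono (fun x hx => lt_of_le_of_lt huv hx)
  have hPn : 0 ≤ P t := measureReal_nonneg
  rcases eq_or_lt_of_le hPn with hPt | hPt
  · rw [← hPt]; exact Phi_nonneg _
  have hpos : ∀ u, u ≤ t → 0 < P u := fun u hu => hPt.trans_le (hanti u t hu)
  have hlt : ∀ u, 0 ≤ u → P u < 1 := fun u hu => (hanti 0 u hu).trans_lt hp1
  -- iterate the midpoint inequality
  have iter : ∀ k : ℕ, Psi (P t) - b ≤ 2 ^ k * (Psi (P (t / 2 ^ k)) - b) := by
    intro k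
    induction k with
    | zero => simp
    | succ k ih =>
      have hk : (0:ℝ) < 2 ^ k := by positivity
      have u1 : 0 ≤ t / 2 ^ k := by positivity
      have u2 : t / 2 ^ k ≤ t := div_le_self ht (one_le_pow₀ (by norm_num))
      have e : (0 + t / 2 ^ k) / 2 = t / 2 ^ (k + 1) := by rw [pow_succ]; field_simp; ring
      have u3 : 0 ≤ t / 2 ^ (k + 1) := by positivity
      have u4 : t / 2 ^ (k + 1) ≤ t := div_le_self ht (one_le_pow₀ (by norm_num))
      have h1 := ehrhard_levels hL hD h0 (s := 0) (t := t / 2 ^ k) (hpos 0 ht) hp1 (hpos _ u2)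
        (hlt _ u1) (by rw [e]; exact hpos _ u4) (by rw [e]; exact hlt _ u3)
      rw [e] at h1
      change (b + Psi (P (t / 2 ^ k))) / 2 ≤ Psi (P (t / 2 ^ (k + 1))) at h1
      calc Psi (P t) - b ≤ 2 ^ k * (Psi (P (t / 2 ^ k)) - b) := ih
        _ ≤ 2 ^ k * (2 * (Psi (P (t / 2 ^ (k + 1))) - b)) :=
          mul_le_mul_of_nonneg_left (by linarith) hk.le
        _ = 2 ^ (k + 1) * (Psi (P (t / 2 ^ (k + 1))) - b) := by rw [pow_succ]; ring
  -- pass to the limit
  have hder2 : HasDerivWithinAt (fun t => Psi (P t)) ((phi b)⁻¹ * (-ρ)) (Ioi 0) 0 := by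
    have h1 : HasDerivAt Psi (phi (Psi (P 0)))⁻¹ (P 0) := hasDerivAt_Psi hp0 hp1
    exact h1.comp_hasDerivWithinAt (0:ℝ) hder
  have hslope := (hasDerivWithinAt_iff_tendsto_slope' (s := Ioi (0:ℝ)) (x := 0) (by simp)).1 hder2
  have hseq : Tendsto (fun k : ℕ => t / 2 ^ k) atTop (𝓝[Ioi 0] (0:ℝ)) := by
    refine tendsto_nhdsWithin_iff.2 ⟨?_, Eventually.of_forall fun k => ?_⟩
    · have h2 : Tendsto (fun k : ℕ => (2:ℝ) ^ k) atTop atTop := tendsto_pow_atTop_atTop_of_one_lt (by norm_num)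
      exact h2.const_div_atTop t
    · exact div_pos htpos (by positivity)
  have hlim := (hslope.comp hseq).const_mul t
  have hlim2 : Tendsto (fun k : ℕ => 2 ^ k * (Psi (P (t / 2 ^ k)) - b)) atTop
      (𝓝 (t * ((phi b)⁻¹ * (-ρ)))) := by
    refine hlim.congr fun k => ?_
    simp only [Function.comp, slope_def_field, sub_zero]
    field_simp
    rfl
  have h2 : Psi (P t) - b ≤ t * ((phi b)⁻¹ * (-ρ)) := ge_of_tendsto' hlim2 iter
  have h3 : Psi (P t) ≤ b - t * (ρ / phi b) := by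
    have : t * ((phi b)⁻¹ * (-ρ)) = -(t * (ρ / phi b)) := by field_simp
    linarith
  have h4 := strictMono_Phi.monotone h3
  rwa [Phi_Psi hPt (hlt t ht)] at h4

end std

/-- antiderivative of `Phi` -/
lemma hasDerivAt_xPhi (x : ℝ) : HasDerivAt (fun x => x * Phi x + phi x) (Phi x) x :=
  (((hasDerivAt_id x).fun_mul (hasDerivAt_Phi x)).fun_add (hasDerivAt_phi x)).congr_deriv (by
    simp only [id]; ring)

lemma integrable_mul_phi : Integrable (fun x : ℝ => x * phi x) := by
  have h2 := (memLp_id_gaussianReal (μ := 0) (v := 1) 1).integrable (by norm_num)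
  rw [gaussianReal_of_var_ne_zero 0 (by norm_num : (1:ℝ≥0) ≠ 0)] at h2
  rw [integrable_withDensity_iff_integrable_smul' (measurable_gaussianPDF 0 1)
    (Eventually.of_forall fun x => gaussianPDF_lt_top)] at h2
  refine h2.congr (Eventually.of_forall fun x => ?_)
  simp only [toReal_gaussianPDF, ← phi_eq, smul_eq_mul, id]
  ring

lemma integrable_neg_mul_phi : Integrable (fun x : ℝ => -x * phi x) :=
  integrable_mul_phi.neg.congr (Eventually.of_forall fun x => by simp)

lemma tendsto_phi_atBot : Tendsto phi atBot (𝓝 0) := by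
  have h1 : Tendsto (fun x : ℝ => |x|⁻¹) atBot (𝓝 0) :=
    tendsto_inv_atTop_zero.comp tendsto_abs_atBot_atTop
  refine squeeze_zero' (Eventually.of_forall phi_nonneg) ?_ h1
  filter_upwards [eventually_lt_atBot (0:ℝ)] with x hx
  have h2 := abs_mul_phi_le x
  have h3 : 0 < |x| := abs_pos.2 hx.ne
  rw [← one_div, le_div_iff₀ h3]
  linarith

lemma mills {x : ℝ} (hx : x ≤ 0) : -x * Phi x ≤ phi x := by
  have h1 : ∫ t in Iic x, (-t * phi t) = phi x - 0 := by
    refine integral_Iic_of_hasDerivAt_of_tendsto' (fun t _ => hasDerivAt_phi t) ?_ tendsto_phi_atBot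
    exact integrable_neg_mul_phi.integrableOn
  rw [sub_zero] at h1
  rw [← h1]
  unfold Phi
  rw [← integral_const_mul]
  refine setIntegral_mono_on (integrable_phi.integrableOn.const_mul _) ?_ measurableSet_Iic ?_
  · exact integrable_neg_mul_phi.integrableOn
  · intro t ht
    exact mul_le_mul_of_nonneg_right (neg_le_neg ht) (phi_nonneg t)

lemma W_nonneg (x : ℝ) : 0 ≤ x * Phi x + phi x := by
  rcases le_total x 0 with h | h
  · have := mills h; linarith
  · have := mul_nonneg h (Phi_nonneg x); linarith [phi_nonneg x]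

lemma W_le_phi {x : ℝ} (hx : x ≤ 0) : x * Phi x + phi x ≤ phi x := by
  have := mul_nonneg (neg_nonneg.2 hx) (Phi_nonneg x); linarith

lemma tendsto_W_atBot : Tendsto (fun x => x * Phi x + phi x) atBot (𝓝 0) := by
  refine squeeze_zero' (Eventually.of_forall W_nonneg) ?_ tendsto_phi_atBot
  filter_upwards [eventually_le_atBot (0:ℝ)] with x hx using W_le_phi hx

lemma integral_Phi_Ioi {b κ : ℝ} (hκ : 0 < κ) :
    IntegrableOn (fun t => Phi (b - t * κ)) (Ioi 0) ∧
    ∫ t in Ioi (0:ℝ), Phi (b - t * κ) = κ⁻¹ * (b * Phi b + phi b) := by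
  have hd : ∀ t ∈ Ici (0:ℝ), HasDerivAt (fun t => -κ⁻¹ * ((b - t * κ) * Phi (b - t * κ) + phi (b - t * κ)))
      (Phi (b - t * κ)) t := by
    intro t _
    have i1 : HasDerivAt (fun t : ℝ => b - t * κ) (-κ) t := by
      simpa using ((hasDerivAt_id t).mul_const κ).const_sub b
    have i2 := (hasDerivAt_xPhi (b - t * κ)).comp t i1
    refine (i2.const_mul (-κ⁻¹)).congr_deriv ?_
    field_simp
  have ht : Tendsto (fun t => -κ⁻¹ * ((b - t * κ) * Phi (b - t * κ) + phi (b - t * κ))) atTop (𝓝 0) := by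
    have h1 : Tendsto (fun t : ℝ => b - t * κ) atTop atBot := by
      have := (tendsto_id.atTop_mul_const hκ : Tendsto (fun t : ℝ => t * κ) atTop atTop)
      exact tendsto_atBot_add_const_left atTop b (tendsto_neg_atTop_atBot.comp this)
    simpa using (tendsto_W_atBot.comp h1).const_mul (-κ⁻¹)
  have hpos : ∀ t ∈ Ioi (0:ℝ), 0 ≤ Phi (b - t * κ) := fun t _ => Phi_nonneg _
  refine ⟨integrableOn_Ioi_deriv_of_nonneg' hd hpos ht, ?_⟩
  rw [integral_Ioi_of_hasDerivAt_of_nonneg' hd hpos ht]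
  simp

section gain

variable {E : Type*} [NormedAddCommGroup E] [InnerProductSpace ℝ E] [FiniteDimensional ℝ E]
  [MeasurableSpace E] [BorelSpace E]

/-- **Gain bound** (consequence of Ehrhard): if `D` is Lipschitz and concave, without atoms, and
the density of `D` at `0+` is `ρ`, then `ρ E D⁺ ≤ I(p) (I(p) + p Φ⁻¹(p))`. -/
theorem gain_bound {D : E → ℝ} {L : ℝ} (hL : ∀ x y, |D x - D y| ≤ L * ‖x - y‖)
    (hD : ∀ x y, (D x + D y) / 2 ≤ D ((2:ℝ)⁻¹ • (x + y)))
    (h0 : ∀ t, stdGaussian E {x | D x = t} = 0)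
    (hp0 : 0 < (stdGaussian E).real {x | 0 < D x}) (hp1 : (stdGaussian E).real {x | 0 < D x} < 1)
    {ρ : ℝ} (hρ : 0 < ρ)
    (hder : HasDerivWithinAt (fun t => (stdGaussian E).real {x | t < D x}) (-ρ) (Ioi 0) 0) :
    ρ * ∫ x, max (D x) 0 ∂stdGaussian E ≤
      phi (Psi ((stdGaussian E).real {x | 0 < D x})) *
        (Psi ((stdGaussian E).real {x | 0 < D x}) * (stdGaussian E).real {x | 0 < D x}
          + phi (Psi ((stdGaussian E).real {x | 0 < D x}))) := by
  have cD := cont_of_lip' hL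
  set b : ℝ := Psi ((stdGaussian E).real {x | 0 < D x}) with hb
  have hPb : Phi b = (stdGaussian E).real {x | 0 < D x} := Phi_Psi hp0 hp1
  have hint : Integrable (fun x => max (D x) 0) (stdGaussian E) := by
    have i1 : Integrable (fun x : E => |D 0| + L * ‖x‖) (stdGaussian E) :=
      (integrable_const _).add (IsGaussian.integrable_id.norm.const_mul L)
    refine i1.mono' (cD.max continuous_const).aestronglyMeasurable ?_
    refine Eventually.of_forall fun x => ?_
    have h1 := hL x 0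
    rw [sub_zero] at h1
    have h2 : |D x| ≤ |D 0| + L * ‖x‖ := by
      have := abs_add_le (D x - D 0) (D 0)
      rw [sub_add_cancel] at this
      linarith
    rw [Real.norm_of_nonneg (le_max_right _ _)]
    exact max_le ((le_abs_self _).trans h2) ((abs_nonneg _).trans h2)
  have hnn : 0 ≤ᵐ[stdGaussian E] (fun x => max (D x) 0) :=
    Eventually.of_forall fun x => le_max_right _ _
  have hκ : 0 < ρ / phi b := div_pos hρ (phi_pos b)
  obtain ⟨i2, e2⟩ := integral_Phi_Ioi (b := b) hκ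
  have h1 : ∫ x, max (D x) 0 ∂stdGaussian E = ∫ t in Ioi (0:ℝ), (stdGaussian E).real {x | t < D x} := by
    rw [hint.integral_eq_integral_meas_lt hnn]
    refine setIntegral_congr_fun measurableSet_Ioi fun t ht => ?_
    have : {a | t < max (D a) 0} = {x | t < D x} := by
      ext x
      simp only [mem_ofPred_eq, lt_max_iff]
      constructor
      · rintro (h | h)
        · exact h
        · exact absurd h (not_lt.2 (le_of_lt ht))
      · exact Or.inl
    simp only [this]
  have h2 : ∫ x, max (D x) 0 ∂stdGaussian E ≤ (ρ / phi b)⁻¹ * (b * Phi b + phi b) := by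
    rw [h1, ← e2]
    refine integral_mono_of_nonneg (Eventually.of_forall fun t => measureReal_nonneg) i2 ?_
    refine (ae_restrict_iff' measurableSet_Ioi).2 (Eventually.of_forall fun t ht => ?_)
    exact tangent_bound hL hD h0 hp0 hp1 hder (le_of_lt ht)
  calc ρ * ∫ x, max (D x) 0 ∂stdGaussian E ≤ ρ * ((ρ / phi b)⁻¹ * (b * Phi b + phi b)) :=
        mul_le_mul_of_nonneg_left h2 hρ.le
    _ = phi b * (b * (stdGaussian E).real {x | 0 < D x} + phi b) := by
        rw [hPb]; field_simp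

end gain

end Crest.Agent.Lib.Ehrhard
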